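import Vale.Agent.P273.H507.Restr

/-!
Contractions of families of nodal curves to a start family: definitions.
-/

noncomputable section

namespace Vale.Agent.P273.H507

open Set Filter Topology H183
open Vale.Agent.P273.H948 (Surf PFam IsModel IsSec State Emap Mset Amb)

variable {L : Type} {m m' : ℕ}

/-- All positions are distinct smooth points. -/
def Good (X₀ : Surf m) (P : L → (Fin m → ℂ) → X₀.X) (b : Fin m → ℂ) : Prop :=
  (∀ j, X₀.SmoothAt (P j b)) ∧ ∀ i j, P i b = P j b → i = j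

/-- `r` contracts the family `C` to the surface `X₀` with the positions `P`, bijectively on the
fibres over the good points. -/
structure Ctr (C : Fam L m) (X₀ : Surf m) (P : L → (Fin m → ℂ) → X₀.X) (r : C.X → X₀.X) :
    Prop where
  cont : Continuous r
  π_r : ∀ x, X₀.π (r x) = C.π x
  pull : ∀ x g, X₀.hol (r x) g → C.hol (g ∘ r) x
  rs : ∀ j, ∀ b ∈ C.B, r (C.s j b) = P j b
  bij : ∀ b ∈ C.B, Good X₀ P b → BijOn r (C.π ⁻¹' {b}) (X₀.π ⁻¹' {b})

/-- A map of the start surfaces over `φ`, an isomorphism on the fibres over `W`. -/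
structure SMap (X₀' : Surf m') (X₀ : Surf m) (W : Set (Fin m' → ℂ))
    (φ : (Fin m' → ℂ) → Fin m → ℂ) (T : X₀'.X → X₀.X) : Prop where
  π : ∀ x, X₀'.π x ∈ W → X₀.π (T x) = φ (X₀'.π x)
  cont : ∀ x, X₀'.π x ∈ W → ContinuousAt T x
  bij : ∀ b ∈ W, BijOn T (X₀'.π ⁻¹' {b}) (X₀.π ⁻¹' {φ b})
  hol : ∀ x, X₀'.π x ∈ W → ∀ g, X₀.hol (T x) g → X₀'.hol x (g ∘ T)

/-- The family of a state in which all labels are marked points. -/
theorem ctr_of_state {X₀ : Surf m} {P : L → (Fin m → ℂ) → X₀.X} {A : Set L}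
    (σ : State X₀ P A) : Ctr (famS σ.F.S σ.F.B σ.s) X₀ P σ.r where
  cont := σ.cont_r
  π_r := σ.π_r
  pull x g hg := σ.pull x g hg
  rs := σ.rs
  bij b hb hg := σ.bij b hb hg.1 hg.2

end Vale.Agent.P273.H507

end
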