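import Vale.Agent.P273.H183.Start

/-! The fibres of the family of the curves `y ^ 2 = f(x)` are connected. -/

noncomputable section

namespace Vale.Agent.P273.H507

open Set Filter
open scoped Topology
open Vale.Agent.P273.H183

/-- Every complex number has a square root near every approximate square root. -/
theorem near_root (y w : ℂ) : ∃ z : ℂ, z ^ 2 = w ∧ ‖z - y‖ ^ 2 ≤ ‖w - y ^ 2‖ := by
  obtain ⟨z, hz⟩ := IsAlgClosed.exists_pow_nat_eq w (n := 2) (by norm_num)
  have e : ‖z - y‖ * ‖z + y‖ = ‖w - y ^ 2‖ := by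
    rw [← norm_mul, ← hz]; congr 1; ring
  rcases le_total ‖z - y‖ ‖z + y‖ with h | h
  · refine ⟨z, hz, ?_⟩
    rw [← e, sq]
    exact mul_le_mul_of_nonneg_left h (norm_nonneg _)
  · refine ⟨-z, by rw [neg_sq, hz], ?_⟩
    have e' : ‖-z - y‖ = ‖z + y‖ := by rw [← norm_neg (z + y)]; congr 1; ring
    rw [← e, e', sq]
    exact mul_le_mul_of_nonneg_right h (norm_nonneg _)

/-- The double cover of the line given by a continuous function with a zero is connected. -/
theorem isPreconnected_cover {f : ℂ → ℂ} (hf : Continuous f) {e : ℂ} (he : f e = 0) :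
    IsPreconnected {z : ℂ × ℂ | z.2 ^ 2 = f z.1} := by
  rw [isPreconnected_iff_subset_of_disjoint]
  -- the key step
  have key : ∀ u v : Set (ℂ × ℂ), IsOpen u → IsOpen v → {z : ℂ × ℂ | z.2 ^ 2 = f z.1} ⊆ u ∪ v →
      {z : ℂ × ℂ | z.2 ^ 2 = f z.1} ∩ (u ∩ v) = ∅ → (e, (0 : ℂ)) ∈ u →
      {z : ℂ × ℂ | z.2 ^ 2 = f z.1} ⊆ u := by
    intro u v hu hv hc hd h0 z₁ hz₁
    by_contra hn
    have hz₁v : z₁ ∈ v := (hc hz₁).resolve_left hn
    set T : Set ℂ := {x | ∃ y, y ^ 2 = f x ∧ (x, y) ∈ v} with hT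
    have hTo : IsOpen T := by
      rw [isOpen_iff_mem_nhds]
      rintro x ⟨y, hy, hyv⟩
      obtain ⟨ε, hε, hb⟩ := Metric.isOpen_iff.1 hv _ hyv
      have h1 : ∀ᶠ x' in 𝓝 x, ‖f x' - f x‖ < ε ^ 2 := by
        obtain ⟨δ, hδ, h⟩ := Metric.continuousAt_iff.1 (hf.continuousAt (x := x)) (ε ^ 2)
          (by positivity)
        filter_upwards [Metric.ball_mem_nhds x hδ] with x' hx'
        rw [← dist_eq_norm]; exact h hx'
      filter_upwards [h1, Metric.ball_mem_nhds x hε] with x' h2 h3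
      obtain ⟨z, hz, hzn⟩ := near_root y (f x')
      refine ⟨z, hz, hb ?_⟩
      rw [Metric.mem_ball, Prod.dist_eq, max_lt_iff]
      refine ⟨h3, ?_⟩
      rw [dist_eq_norm]
      rw [hy] at hzn
      exact lt_of_pow_lt_pow_left₀ 2 hε.le (lt_of_le_of_lt hzn h2)
    have hTc : IsOpen Tᶜ := by
      rw [isOpen_iff_mem_nhds]
      intro x hx
      obtain ⟨z₀, hz₀⟩ := IsAlgClosed.exists_pow_nat_eq (f x) (n := 2) (by norm_num)
      have hmem : ∀ z : ℂ, z ^ 2 = f x → (x, z) ∈ u := by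
        intro z hz
        refine (hc (show (x, z).2 ^ 2 = f (x, z).1 from hz)).resolve_right fun h => hx ⟨z, hz, h⟩
      obtain ⟨ε₁, hε₁, hb₁⟩ := Metric.isOpen_iff.1 hu _ (hmem z₀ hz₀)
      obtain ⟨ε₂, hε₂, hb₂⟩ := Metric.isOpen_iff.1 hu _ (hmem (-z₀) (by rw [neg_sq, hz₀]))
      set ε := min ε₁ ε₂ with hεd
      have hε : 0 < ε := lt_min hε₁ hε₂
      have h1 : ∀ᶠ x' in 𝓝 x, ‖f x' - f x‖ < ε ^ 2 := by
        obtain ⟨δ, hδ, h⟩ := Metric.continuousAt_iff.1 (hf.continuousAt (x := x)) (ε ^ 2)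
          (by positivity)
        filter_upwards [Metric.ball_mem_nhds x hδ] with x' hx'
        rw [← dist_eq_norm]; exact h hx'
      filter_upwards [h1, Metric.ball_mem_nhds x hε] with x' h2 h3
      rintro ⟨y, hy, hyv⟩
      obtain ⟨z, hz, hzn⟩ := near_root y (f x)
      rw [hy, ← norm_neg (f x - f x'), neg_sub] at hzn
      have hzy : ‖z - y‖ < ε := lt_of_pow_lt_pow_left₀ 2 hε.le (lt_of_le_of_lt hzn h2)
      have hyz : dist y z < ε := by rw [dist_comm, dist_eq_norm]; exact hzy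
      have hyu : (x', y) ∈ u := by
        rcases sq_eq_sq_iff_eq_or_eq_neg.1 (hz.trans hz₀.symm) with h | h
        · refine hb₁ ?_
          rw [Metric.mem_ball, Prod.dist_eq, max_lt_iff]
          exact ⟨lt_of_lt_of_le h3 (min_le_left _ _), h ▸ lt_of_lt_of_le hyz (min_le_left _ _)⟩
        · refine hb₂ ?_
          rw [Metric.mem_ball, Prod.dist_eq, max_lt_iff]
          exact ⟨lt_of_lt_of_le h3 (min_le_right _ _), h ▸ lt_of_lt_of_le hyz (min_le_right _ _)⟩
      have : (x', y) ∈ ({z : ℂ × ℂ | z.2 ^ 2 = f z.1} ∩ (u ∩ v) : Set (ℂ × ℂ)) := ⟨hy, hyu, hyv⟩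
      rw [hd] at this
      exact this
    have hTu : T = univ := by
      rcases isClopen_iff.1 ⟨⟨hTc⟩, hTo⟩ with h | h
      · have : z₁.1 ∈ T := ⟨z₁.2, hz₁, hz₁v⟩
        rw [h] at this
        exact absurd this (notMem_empty _)
      · exact h
    have heT : e ∈ T := hTu ▸ mem_univ e
    obtain ⟨y, hy, hyv⟩ := heT
    rw [he] at hy
    have hy0 : y = 0 := by simpa using hy
    rw [hy0] at hyv
    have : (e, (0 : ℂ)) ∈ ({z : ℂ × ℂ | z.2 ^ 2 = f z.1} ∩ (u ∩ v) : Set (ℂ × ℂ)) :=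
      ⟨by simp [he], h0, hyv⟩
    rw [hd] at this
    exact this
  intro u v hu hv hc hd
  have h0 : (e, (0 : ℂ)) ∈ {z : ℂ × ℂ | z.2 ^ 2 = f z.1} := by simp [he]
  rcases hc h0 with h | h
  · exact Or.inl (key u v hu hv hc hd h)
  · exact Or.inr (key v u hv hu (by rwa [union_comm]) (by rwa [inter_comm v u]) h)

theorem continuous_sx (a : Fin 6 → ℂ) : Continuous (sx a) := by
  unfold sx; fun_prop

theorem continuous_sw (a : Fin 6 → ℂ) : Continuous (sw a) := by
  unfold sw; fun_prop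

/-- Every monic sextic has a root. -/
theorem exists_root_sx (a : Fin 6 → ℂ) : ∃ x, sx a x = 0 := by
  open Polynomial in
  set p : ℂ[X] := X ^ 6 + C (a 5) * X ^ 5 + C (a 4) * X ^ 4 + C (a 3) * X ^ 3 + C (a 2) * X ^ 2 +
    C (a 1) * X + C (a 0) with hp
  have hd : p.natDegree = 6 := by rw [hp]; compute_degree!
  obtain ⟨x, hx⟩ := IsAlgClosed.exists_root p (by
    intro h
    have := Polynomial.natDegree_eq_of_degree_eq_some h
    rw [hd] at this
    exact absurd this (by norm_num))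
  refine ⟨x, ?_⟩
  have : p.eval x = 0 := hx
  simpa [hp, sx] using this

variable {m : ℕ} {B : Set (Fin m → ℂ)} {a : (Fin m → ℂ) → Fin 6 → ℂ}

/-- The point with affine coordinates `(x, y)` of the fibre over `b`. -/
def fa {b : Fin m → ℂ} (hb : b ∈ B) (z : {z : ℂ × ℂ | z.2 ^ 2 = sx (a b) z.1}) : tot B a :=
  ptA ⟨(b, z.1.1, z.1.2), hb, z.2⟩

theorem continuous_fa {b : Fin m → ℂ} (hb : b ∈ B) :
    Continuous (fa hb : {z : ℂ × ℂ | z.2 ^ 2 = sx (a b) z.1} → tot B a) := by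
  unfold fa ptA
  refine Continuous.subtype_mk ?_ _
  exact continuous_emb.comp (by fun_prop)

theorem mem_range_fa {b : Fin m → ℂ} (hb : b ∈ B) {P : tot B a}
    (hP : P ∈ (aff : Set (tot B a))) (hPb : pr P = b) : P ∈ range (fa hb : _ → tot B a) := by
  obtain ⟨z, rfl⟩ := exists_aff hP
  have h1 : z.1.1 = b := hPb
  obtain ⟨⟨b', x, y⟩, hz1, hz2⟩ := z
  simp only at h1
  subst h1
  exact ⟨⟨(x, y), hz2⟩, rfl⟩

/-- The fibres of the family `y ^ 2 = f(x)` are connected. -/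
theorem isConnected_pr {b : Fin m → ℂ} (hb : b ∈ B) :
    IsConnected {P : tot B a | pr P = b} := by
  obtain ⟨e, he⟩ := exists_root_sx (a b)
  have h0 : ((e, 0) : ℂ × ℂ) ∈ {z : ℂ × ℂ | z.2 ^ 2 = sx (a b) z.1} := by simp [he]
  refine ⟨⟨fa hb ⟨(e, 0), h0⟩, rfl⟩, ?_⟩
  have hpre : IsPreconnected {z : ℂ × ℂ | z.2 ^ 2 = sx (a b) z.1} :=
    isPreconnected_cover (continuous_sx (a b)) he
  have : PreconnectedSpace {z : ℂ × ℂ | z.2 ^ 2 = sx (a b) z.1} :=
    Subtype.preconnectedSpace hpre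
  have hr : IsPreconnected (range (fa hb : {z : ℂ × ℂ | z.2 ^ 2 = sx (a b) z.1} → tot B a)) :=
    isPreconnected_range (continuous_fa hb)
  refine hr.subset_closure ?_ ?_
  · rintro _ ⟨z, rfl⟩
    rfl
  · intro P hP
    rcases mem_aff_or_far P with h | h
    · exact subset_closure (mem_range_fa hb h hP)
    · by_cases hw : wC P = 0
      swap
      · exact subset_closure (mem_range_fa hb ((aff_iff h).2 hw) hP)
      obtain ⟨z, rfl⟩ := exists_far h
      obtain ⟨⟨b', w, u⟩, hz1, hz2⟩ := z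
      have hb' : b' = b := hP
      subst hb'
      rw [wC, cF_ptF] at hw
      simp only at hw
      subst hw
      simp only at hz2
      choose g hg hgn using fun w : ℂ => near_root u (sw (a b') w)
      have hmem : ∀ w, ((b', w, g w) : (Fin m → ℂ) × ℂ × ℂ) ∈ Zfar B a := fun w => ⟨hz1, hg w⟩
      have ht : Tendsto g (𝓝[≠] 0) (𝓝 u) := by
        rw [tendsto_iff_norm_sub_tendsto_zero]
        have h1 : Tendsto (fun w => ‖sw (a b') w - u ^ 2‖) (𝓝 0) (𝓝 0) := by
          have h2 : Continuous (fun w => ‖sw (a b') w - u ^ 2‖) :=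
            ((continuous_sw _).sub continuous_const).norm
          have h3 := h2.tendsto 0
          have h6 : ‖sw (a b') 0 - u ^ 2‖ = 0 := by rw [hz2, sub_self, norm_zero]
          rwa [h6] at h3
        have h4 : Tendsto (fun w => ‖g w - u‖ ^ 2) (𝓝[≠] 0) (𝓝 0) :=
          squeeze_zero (fun w => by positivity) hgn (h1.mono_left nhdsWithin_le_nhds)
        have h5 := h4.sqrt
        simpa [Real.sqrt_sq (norm_nonneg _)] using h5
      have htt : Tendsto (fun w => (ptF ⟨(b', w, g w), hmem w⟩ : tot B a)) (𝓝[≠] 0)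
          (𝓝 (ptF ⟨(b', 0, u), ⟨hz1, hz2⟩⟩)) := by
        rw [tendsto_subtype_rng]
        change Tendsto (fun w => emb' (b', w, g w)) _ (𝓝 (emb' (b', 0, u)))
        refine (continuous_emb'.tendsto _).comp ?_
        exact tendsto_const_nhds.prodMk_nhds
          ((tendsto_id.mono_left nhdsWithin_le_nhds).prodMk_nhds ht)
      refine mem_closure_of_tendsto htt ?_
      filter_upwards [self_mem_nhdsWithin] with w hw
      refine mem_range_fa hb ((aff_iff (ptF_mem _)).2 ?_) rfl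
      rw [wC, cF_ptF]
      exact hw

theorem start_conn (L : Type) [IsEmpty L] {b : Fin m → ℂ} (hb : b ∈ B) :
    IsConnected ((start L B a).fib b) := isConnected_pr hb

end Vale.Agent.P273.H507

end
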