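import Vale.Agent.P273.H591.StartNorm
import Vale.Agent.P273.H724.Start0
import Vale.Agent.P273.H720.Dom

/-!
The positions of the marks of a region with gaps in the start family, on the normalisation of the
start family at the points where exactly the gaps in `B` vanish.
-/

noncomputable section

namespace Vale.Agent.P273.H507

open Set Filter H95 H93 H728 H591
open scoped Topology
open Vale.Agent.P273.H183 (tot startS secA secF pr xC yC wC uC cA cF aff far Zaff Zfar inf)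
open Vale.Agent.P273.H724 (co0 z0 v0 Base0 PW sqW)
open Vale.Agent.P273.H888 (Far posP)

section point

variable {T : RB} {p : (rg T).Sp} {S : L → Bool}

/-- The gaps in `B` vanish. -/
def ZB (T : RB) (p : (rg T).Sp) : Prop :=
  ∀ g : (rg T).Gap, (g.2 : ℕ) ∈ T.B g.1 → p.1 g = 0

theorem ZB.eps (h : ZB T p) : (rg T).eps p = 0 := by
  funext k
  obtain ⟨b, hb⟩ := T.ne k
  exact Finset.prod_eq_zero (Finset.mem_univ ⟨b, H720.gap_ex hb⟩) (h ⟨k, _⟩ hb)

theorem ZB.XX (h : ZB T p) {k : Fin 3} {i b : ℕ} (hb : b ∈ T.B k) (hi : b ≤ i) :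
    (rg T).XX p k i = 0 := by
  refine Finset.prod_eq_zero (Finset.mem_univ ⟨b, H720.gap_ex hb⟩) ?_
  rw [if_pos hi]
  exact h ⟨k, _⟩ hb

theorem ZB.YY (h : ZB T p) {k : Fin 3} {i b : ℕ} (hb : b ∈ T.B k) (hi : i < b) :
    (rg T).YY p k i = 0 := by
  refine Finset.prod_eq_zero (Finset.mem_univ ⟨b, H720.gap_ex hb⟩) ?_
  rw [if_pos hi]
  exact h ⟨k, _⟩ hb

/-- **A mark in a neck**: on the core P, on the core P', or at the node. -/
theorem ZB.neck (h : ZB T p) {j : L} {k : Fin 3} (hj : T.pl j = Sum.inl k) :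
    (T.comp j = Sum.inl false ∧ (rg T).YY p k (T.rk j) = 0 ∧
      (rg T).sht S p j = gc 0 ((rg T).pos p j)) ∨
    (T.comp j = Sum.inl true ∧ (rg T).XX p k (T.rk j) = 0 ∧
      (rg T).sht S p j = -gc 0 ((rg T).pos p j)) ∨
    ∃ r, T.comp j = Sum.inr (k, r) ∧ (rg T).XX p k (T.rk j) = 0 ∧ (rg T).YY p k (T.rk j) = 0 ∧
      (rg T).pos p j = ctr k ∧ (rg T).sht S p j = 0 := by
  have hp := H720.pos_neck (rg T) p (j := j) (k := k) hj
  have hs := H720.sht_neck (rg T) S p (j := j) (k := k) hj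
  rw [h.eps] at hs
  have hrk : (rg T).rk j = T.rk j := rfl
  rw [hrk] at hp hs
  obtain ⟨b₀, hb₀⟩ := T.ne k
  by_cases h1 : T.cnt k (T.rk j) = 0
  · left
    have hlt : T.rk j < b₀ := by
      by_contra hlt
      have := RB.cnt_pos (T := T) hb₀ (not_lt.1 hlt)
      omega
    have hY := h.YY hb₀ hlt
    refine ⟨by rw [RB.comp_neck hj, if_pos h1], hY, ?_⟩
    rw [← H720.gk_zero k, hs, hY]
    rw [hY] at hp
    have : (rg T).pos p j - ctr k = (rg T).XX p k (T.rk j) / 2 := by rw [hp]; ring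
    rw [this]; ring
  · right
    have hex : ∃ b ∈ T.B k, b ≤ T.rk j := by
      by_contra hcon
      push Not at hcon
      apply h1
      unfold RB.cnt
      rw [Finset.filter_false_of_mem fun b hb => not_le.2 (hcon b hb), Finset.card_empty]
    obtain ⟨b₁, hb₁, hle⟩ := hex
    have hX := h.XX hb₁ hle
    by_cases h2 : T.cnt k (T.rk j) = (T.B k).card
    · left
      refine ⟨by rw [RB.comp_neck hj, if_neg h1, if_pos h2], hX, ?_⟩
      rw [← H720.gk_zero k, hs, hX]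
      rw [hX] at hp
      have : (rg T).pos p j - ctr k = (rg T).YY p k (T.rk j) / 2 := by rw [hp]; ring
      rw [this]; ring
    · right
      have hex : ∃ b ∈ T.B k, T.rk j < b := by
        by_contra hcon
        push Not at hcon
        apply h2
        unfold RB.cnt
        rw [Finset.filter_true_of_mem hcon]
      obtain ⟨b₂, hb₂, hlt⟩ := hex
      have hY := h.YY hb₂ hlt
      refine ⟨_, by rw [RB.comp_neck hj, if_neg h1, if_neg h2], hX, hY, ?_, ?_⟩
      · rw [hp, hX, hY]; ring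
      · rw [hs, hX, hY]; ring

/-- **The sheet of a mark on a core.** -/
theorem ZB.core (h : ZB T p) (hS : Far (rg T) S) {j : L} {s : Bool} (hj : T.comp j = Sum.inl s) :
    (S j = false → (rg T).sht S p j = sg s * gc 0 ((rg T).pos p j)) ∧
      (S j = true → (rg T).sht S p j = sg s * gcw 0 ((rg T).pos p j)) := by
  rcases hpl : T.pl j with k | s'
  · have hSj : S j = false := H724.neck_S (R := rg T) hS hpl
    refine ⟨fun _ => ?_, fun e => by rw [hSj] at e; exact absurd e (by decide)⟩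
    rcases h.neck (S := S) hpl with ⟨h1, -, h2⟩ | ⟨h1, -, h2⟩ | ⟨r, h1, -⟩
    · rw [h1] at hj
      cases hj
      rw [h2]; simp [sg]
    · rw [h1] at hj
      cases hj
      rw [h2]; simp [sg]
    · rw [h1] at hj
      cases hj
  · have h1 := RB.comp_core (T := T) hpl
    rw [h1] at hj
    cases hj
    have h2 := H720.sht_core (rg T) S p (j := j) (s := s) hpl
    rw [h.eps] at h2
    refine ⟨fun e => ?_, fun e => ?_⟩
    · rw [h2, e]; simp [sg]
    · rw [h2, e]; simp [sg]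

end point

/-- The centres as functions. -/
def ec (m' : ℕ) : Fin 3 → (Fin m' → ℂ) → ℂ := fun k _ => ctr k

theorem Gc_ec {m' : ℕ} (b : Fin m' → ℂ) (x : ℂ) : Gc (ec m') b x = gc 0 x := by
  rw [H720.gc_zero, Fin.prod_univ_three]; rfl

theorem Gr_ec {m' : ℕ} (b : Fin m' → ℂ) (w : ℂ) : H591.Gr (ec m') b w = gcw 0 w := by
  rw [H720.gcw_zero, Fin.prod_univ_three]
  simp only [H591.Gr, ec]; ring

section lab

variable {n m' : ℕ} {T : RB} {κ : (Fin n → ℂ) ≃L[ℂ] (rg T).Sp} {S : L → Bool}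
  {W : Set (Fin n → ℂ)} {U : Set (Fin m' → ℂ)} {φ : (Fin m' → ℂ) → Fin n → ℂ}

/-- The sextic at a point where the gaps in `B` vanish. -/
theorem sx_ZB {b : Fin n → ℂ} (h : ZB T (κ b)) (b' : Fin m' → ℂ) (x : ℂ) :
    H183.sx (co0 κ b) x = ((x - ec m' 0 b') * (x - ec m' 1 b') * (x - ec m' 2 b')) ^ 2 := by
  have e1 : H183.sx (co0 κ b) x = H95.sx (thA ((rg T).eps (κ b))) x := (H724.sx_eq _ _).symm
  rw [e1, H724.sx_thA, h.eps, Fin.prod_univ_three]
  simp only [ec, Pi.zero_apply, sub_zero]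
  ring

variable [Nonempty (tot W (co0 κ))]

/-- Coordinates of a position in the affine part. -/
theorem PW_aff (D : Base0 κ S W) (hS : Far (rg T) S) {x : L} (hx : S x = false)
    {b : Fin n → ℂ} (hb : b ∈ W) : PW κ S W x b ∈ (aff : Set (tot W (co0 κ))) ∧
      cA (PW κ S W x b : tot W (co0 κ)) =
        (b, (rg T).pos (κ b) x, (rg T).sht S (κ b) x) := by
  have h1 : v0 κ S x b ^ 2 = H183.sx (co0 κ b) (z0 κ x b) := by
    have := sqW D hS x hb
    rwa [hx, H724.pol_false] at this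
  have hm : (b, z0 κ x b, v0 κ S x b) ∈ Zaff W (co0 κ) := ⟨hb, h1⟩
  have e : PW κ S W x b = (secA (z0 κ x) (v0 κ S x) b : tot W (co0 κ)) := by
    simp only [PW, posP, hx, Bool.false_eq_true, if_false]
  rw [e]
  exact ⟨H183.secA_mem hm, H183.cA_secA hm⟩

/-- Coordinates of a position near infinity. -/
theorem PW_far (D : Base0 κ S W) (hS : Far (rg T) S) {x : L} (hx : S x = true)
    {b : Fin n → ℂ} (hb : b ∈ W) : PW κ S W x b ∈ (far : Set (tot W (co0 κ))) ∧
      cF (PW κ S W x b : tot W (co0 κ)) =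
        (b, (rg T).pos (κ b) x, (rg T).sht S (κ b) x) := by
  have h1 : v0 κ S x b ^ 2 = H183.sw (co0 κ b) (z0 κ x b) := by
    have := sqW D hS x hb
    rwa [hx, H724.pol_true] at this
  have hm : (b, z0 κ x b, v0 κ S x b) ∈ Zfar W (co0 κ) := ⟨hb, h1⟩
  have e : PW κ S W x b = (secF (z0 κ x) (v0 κ S x) b : tot W (co0 κ)) := by
    simp only [PW, posP, hx, if_true]
  rw [e]
  exact ⟨H183.secF_mem hm, H183.cF_secF hm⟩

/-- **The labels on the normalisation of the start family.** -/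
theorem start_lab (D : Base0 κ S W) (hS : Far (rg T) S) (hφ : ∀ b ∈ U, φ b ∈ W)
    (hB : ∀ b ∈ U, ZB T (κ (φ b)))
    {g : Bool → OnePoint ℂ → (Fin m' → ℂ) → tot W (co0 κ)}
    (hπ : ∀ s w, ∀ b ∈ U, pr (g s w b) = φ b)
    (hA : ∀ s (x : ℂ), ∀ b ∈ U, g s x b ∈ (aff : Set (tot W (co0 κ))) ∧
      xC (g s x b) = x ∧ yC (g s x b) = sg s * Gc (ec m') b x)
    (hF : ∀ s (t : ℂ), ∀ b ∈ U, g s (inf t) b ∈ (far : Set (tot W (co0 κ))) ∧
      wC (g s (inf t) b) = t ∧ uC (g s (inf t) b) = sg s * H591.Gr (ec m') b t) :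
    (∀ x s, T.comp x = Sum.inl s → ∀ b ∈ U, PW κ S W x (φ b) = g s (mz T S (κ (φ b)) x) b) ∧
    ∀ x k r, T.comp x = Sum.inr (k, r) → ∀ b ∈ U,
      (rg T).XX (κ (φ b)) k (T.rk x) = 0 ∧ (rg T).YY (κ (φ b)) k (T.rk x) = 0 ∧
      ∀ s, PW κ S W x (φ b) = g s (ctr k : ℂ) b := by
  have hAi : ∀ P Q : tot W (co0 κ), P ∈ (aff : Set (tot W (co0 κ))) →
      Q ∈ (aff : Set (tot W (co0 κ))) → cA P = cA Q → P = Q := fun P Q hP hQ e =>
    H183.isAmb_aff.inj hP hQ e
  have hFi : ∀ P Q : tot W (co0 κ), P ∈ (far : Set (tot W (co0 κ))) →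
      Q ∈ (far : Set (tot W (co0 κ))) → cF P = cF Q → P = Q := fun P Q hP hQ e =>
    H183.isAmb_far.inj hP hQ e
  have gA : ∀ s (x : ℂ), ∀ b ∈ U, cA (g s x b) = (φ b, x, sg s * gc 0 x) := by
    intro s x b hb
    obtain ⟨-, h2, h3⟩ := hA s x b hb
    rw [Gc_ec] at h3
    rw [H183.cA_eq, hπ s _ b hb, h2, h3]
  have gF : ∀ s (x : ℂ), ∀ b ∈ U, cF (g s (inf x) b) = (φ b, x, sg s * gcw 0 x) := by
    intro s x b hb
    obtain ⟨-, h2, h3⟩ := hF s x b hb
    rw [Gr_ec] at h3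
    rw [H183.cF_eq, hπ s _ b hb, h2, h3]
  refine ⟨fun x s hx b hb => ?_, fun x k r hx b hb => ?_⟩
  · obtain ⟨h1, h2⟩ := (hB b hb).core hS hx
    rcases hSx : S x with _ | _
    · obtain ⟨h3, h4⟩ := PW_aff D hS hSx (hφ b hb)
      have h5 : mz T S (κ (φ b)) x = (((rg T).pos (κ (φ b)) x : ℂ) : OnePoint ℂ) := by
        simp only [mz, hx, hSx, Bool.false_eq_true, if_false]
      rw [h5]
      refine hAi _ _ h3 (hA s _ b hb).1 ?_
      rw [h4, gA s _ b hb, h1 hSx]
    · obtain ⟨h3, h4⟩ := PW_far D hS hSx (hφ b hb)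
      have h5 : mz T S (κ (φ b)) x = inf ((rg T).pos (κ (φ b)) x) := by
        simp only [mz, hx, hSx, if_true]
      rw [h5]
      refine hFi _ _ h3 (hF s _ b hb).1 ?_
      rw [h4, gF s _ b hb, h2 hSx]
  · obtain ⟨hpl, -, -, -⟩ := RB.comp_eq_inr.1 hx
    have hSx : S x = false := H724.neck_S (R := rg T) hS hpl
    rcases (hB b hb).neck (S := S) hpl with ⟨h1, -⟩ | ⟨h1, -⟩ | ⟨r', -, h2, h3, h4, h5⟩
    · rw [h1] at hx; cases hx
    · rw [h1] at hx; cases hx
    · refine ⟨h2, h3, fun s => ?_⟩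
      obtain ⟨h6, h7⟩ := PW_aff D hS hSx (hφ b hb)
      refine hAi _ _ h6 (hA s _ b hb).1 ?_
      rw [h7, gA s _ b hb, h4, h5]
      have : gc 0 (ctr k) = 0 := by
        rw [← H720.gk_zero k, sub_self, mul_zero]
      rw [this, mul_zero]

end lab

end Vale.Agent.P273.H507

end
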