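import Vale.Agent.P273.H261.Limit

/-!
Product majorants with a general weight, in particular `∏ (1 + u) ^ k exp (- u)`, and the scaling
lemma with such a majorant.
-/

namespace Vale.Agent.P273.H507

open MeasureTheory Filter Topology Function
open Vale.Agent.P273.H261

variable {I Z E : Type*} [Fintype I] [DecidableEq I] [MeasurableSpace Z]
  [NormedAddCommGroup E] [NormedSpace ℝ E]

/-- The majorant with weight `w` in the coordinates not in `B`. -/
noncomputable def majw (B : Finset I) (Y : ℝ) (w : ℝ → ℝ) (u : I → ℝ) : ℝ :=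
  ∏ i, (if i ∈ B then (Set.Icc (0 : ℝ) Y).indicator (fun _ => (1 : ℝ)) (u i)
    else (Set.Ici (0 : ℝ)).indicator w (u i))

/-- The region of integration. -/
def reg (B : Finset I) (Y : ℝ) : Set (I → ℝ) := {u | (∀ i, 0 ≤ u i) ∧ ∀ i ∈ B, u i ≤ Y}

omit [DecidableEq I] [Fintype I] in
theorem measurableSet_reg [Finite I] (B : Finset I) (Y : ℝ) : MeasurableSet (reg B Y) := by
  have h : reg B Y = (⋂ i, {u : I → ℝ | 0 ≤ u i}) ∩ ⋂ i ∈ B, {u : I → ℝ | u i ≤ Y} := by
    ext u; simp [reg]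
  rw [h]
  have : Countable I := Finite.to_countable
  refine (MeasurableSet.iInter fun i => ?_).inter
    (Finset.measurableSet_biInter B fun i _ => ?_)
  · exact measurableSet_le measurable_const (measurable_pi_apply i)
  · exact measurableSet_le (measurable_pi_apply i) measurable_const

theorem majw_of_mem {B : Finset I} {Y : ℝ} {w : ℝ → ℝ} {u : I → ℝ} (h : u ∈ reg B Y) :
    majw B Y w u = ∏ i ∈ Bᶜ, w (u i) := by
  rw [majw, Finset.prod_ite]
  have h1 : ∏ x ∈ Finset.univ.filter (fun x => x ∈ B),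
      (Set.Icc (0 : ℝ) Y).indicator (fun _ => (1 : ℝ)) (u x) = 1 := by
    refine Finset.prod_eq_one fun i hi => ?_
    have hi' : i ∈ B := by simpa using hi
    rw [Set.indicator_of_mem (Set.mem_Icc.2 ⟨h.1 i, h.2 i hi'⟩)]
  have h2 : (Finset.univ.filter fun x => x ∉ B) = Bᶜ := by ext; simp
  rw [h1, one_mul, h2]
  exact Finset.prod_congr rfl fun i _ => Set.indicator_of_mem (Set.mem_Ici.2 (h.1 i)) _

theorem majw_of_not_mem {B : Finset I} {Y : ℝ} {w : ℝ → ℝ} {u : I → ℝ} (h : u ∉ reg B Y) :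
    majw B Y w u = 0 := by
  have : ∃ i, (if i ∈ B then (Set.Icc (0 : ℝ) Y).indicator (fun _ => (1 : ℝ)) (u i)
    else (Set.Ici (0 : ℝ)).indicator w (u i)) = 0 := by
    by_contra hn
    push Not at hn
    apply h
    refine ⟨fun i => ?_, fun i hi => ?_⟩
    · have := hn i
      split_ifs at this with hi
      · exact (Set.mem_of_indicator_ne_zero this).1
      · exact Set.mem_of_indicator_ne_zero this
    · have := hn i
      rw [if_pos hi] at this
      exact (Set.mem_of_indicator_ne_zero this).2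
  obtain ⟨i, hi⟩ := this
  exact Finset.prod_eq_zero (Finset.mem_univ i) hi

theorem majw_eq_indicator (B : Finset I) (Y : ℝ) (w : ℝ → ℝ) :
    majw B Y w = (reg B Y).indicator fun u => ∏ i ∈ Bᶜ, w (u i) := by
  funext u
  by_cases h : u ∈ reg B Y
  · rw [majw_of_mem h, Set.indicator_of_mem h]
  · rw [majw_of_not_mem h, Set.indicator_of_notMem h]

theorem majw_nonneg (B : Finset I) (Y : ℝ) {w : ℝ → ℝ} (hw : ∀ x, 0 ≤ x → 0 ≤ w x) (u : I → ℝ) :
    0 ≤ majw B Y w u := by
  by_cases h : u ∈ reg B Y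
  · rw [majw_of_mem h]
    exact Finset.prod_nonneg fun i _ => hw _ (h.1 i)
  · rw [majw_of_not_mem h]

theorem integrable_majw (B : Finset I) (Y : ℝ) {w : ℝ → ℝ} (hw : IntegrableOn w (Set.Ioi 0)) :
    Integrable (majw B Y w) := by
  have := Integrable.fintype_prod_dep (𝕜 := ℝ) (ι := I) (E := fun _ => ℝ)
    (f := fun i x => (if i ∈ B then (Set.Icc (0 : ℝ) Y).indicator (fun _ => (1 : ℝ)) x
      else (Set.Ici (0 : ℝ)).indicator w x))
    (μ := fun _ => (volume : Measure ℝ)) ?_
  · exact this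
  · intro i
    by_cases hi : i ∈ B
    · simp only [hi, if_true]
      refine (integrable_indicator_iff measurableSet_Icc).2 ?_
      exact integrableOn_const (by simp) (by simp)
    · simp only [hi, if_false]
      exact (integrable_indicator_iff measurableSet_Ici).2
        ((integrableOn_Ici_iff_integrableOn_Ioi).2 hw)

theorem integral_majw (B : Finset I) {Y : ℝ} (hY : 0 ≤ Y) (w : ℝ → ℝ) :
    ∫ u, majw B Y w u = Y ^ B.card * (∫ x in Set.Ioi 0, w x) ^ Bᶜ.card := by
  have h := integral_fintype_prod_eq_prod (𝕜 := ℝ) (ι := I) (E := fun _ => ℝ)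
    (fun i x => (if i ∈ B then (Set.Icc (0 : ℝ) Y).indicator (fun _ => (1 : ℝ)) x
      else (Set.Ici (0 : ℝ)).indicator w x)) (μ := fun _ => (volume : Measure ℝ))
  have h0 : ∫ u, majw B Y w u = ∏ i : I, ∫ x, (if i ∈ B then
      (Set.Icc (0 : ℝ) Y).indicator (fun _ => (1 : ℝ)) x
      else (Set.Ici (0 : ℝ)).indicator w x) := h
  have h1 : ∀ i : I, (∫ x, (if i ∈ B then (Set.Icc (0 : ℝ) Y).indicator (fun _ => (1 : ℝ)) x
      else (Set.Ici (0 : ℝ)).indicator w x)) =
      if i ∈ B then Y else ∫ x in Set.Ioi 0, w x := by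
    intro i
    split_ifs with hi
    · rw [integral_indicator measurableSet_Icc]
      simp [hY]
    · rw [integral_indicator measurableSet_Ici, integral_Ici_eq_integral_Ioi]
  have h2 : (Finset.univ.filter fun x => x ∉ B) = Bᶜ := by ext; simp
  have h3 : (Finset.univ.filter fun x => x ∈ B) = B := by ext; simp
  rw [h0, Finset.prod_congr rfl fun i _ => h1 i, Finset.prod_ite, Finset.prod_const,
    Finset.prod_const, h2, h3]

theorem integrableOn_prod (B : Finset I) (Y : ℝ) {w : ℝ → ℝ} (hw : IntegrableOn w (Set.Ioi 0)) :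
    IntegrableOn (fun u : I → ℝ => ∏ i ∈ Bᶜ, w (u i)) (reg B Y) := by
  rw [← integrable_indicator_iff (measurableSet_reg B Y), ← majw_eq_indicator]
  exact integrable_majw B Y hw

theorem setIntegral_prod (B : Finset I) {Y : ℝ} (hY : 0 ≤ Y) (w : ℝ → ℝ) :
    ∫ u in reg B Y, ∏ i ∈ Bᶜ, w (u i) = Y ^ B.card * (∫ x in Set.Ioi 0, w x) ^ Bᶜ.card := by
  rw [← integral_indicator (measurableSet_reg B Y), ← majw_eq_indicator, integral_majw B hY w]

theorem integrableOn_pow_mul_exp (k : ℕ) :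
    IntegrableOn (fun x : ℝ => x ^ k * Real.exp (-x)) (Set.Ioi 0) := by
  have h := Real.GammaIntegral_convergent (s := k + 1) (by positivity)
  refine h.congr_fun (fun x _ => ?_) measurableSet_Ioi
  simp only
  rw [add_sub_cancel_right, Real.rpow_natCast, mul_comm]

/-- The weight `(1 + x) ^ k exp (- x)` is integrable. -/
theorem integrableOn_one_add_pow (k : ℕ) :
    IntegrableOn (fun x : ℝ => (1 + x) ^ k * Real.exp (-x)) (Set.Ioi 0) := by
  have h : (fun x : ℝ => (1 + x) ^ k * Real.exp (-x)) =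
      fun x => ∑ j ∈ Finset.range (k + 1), (k.choose j : ℝ) * (x ^ j * Real.exp (-x)) := by
    funext x
    rw [add_comm, add_pow, Finset.sum_mul]
    refine Finset.sum_congr rfl fun j _ => ?_
    rw [one_pow]; ring
  rw [h]
  exact integrable_finsetSum _ fun j _ => (integrableOn_pow_mul_exp j).const_mul _

theorem integrableOn_one_add :
    IntegrableOn (fun x : ℝ => (1 + x) * Real.exp (-x)) (Set.Ioi 0) := by
  simpa using integrableOn_one_add_pow 1

/-- `∫ (1 + x) exp (- x) = 2`. -/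
theorem integral_one_add : ∫ x : ℝ in Set.Ioi 0, (1 + x) * Real.exp (-x) = 2 := by
  have h1 : ∫ x : ℝ in Set.Ioi 0, x ^ 1 * Real.exp (-x) = 1 := by
    have h := Real.Gamma_eq_integral (s := 2) (by norm_num)
    rw [Real.Gamma_two] at h
    rw [h]
    refine setIntegral_congr_fun measurableSet_Ioi fun x _ => ?_
    change x ^ 1 * Real.exp (-x) = Real.exp (-x) * x ^ ((2 : ℝ) - 1)
    rw [show (2 : ℝ) - 1 = ((1 : ℕ) : ℝ) by norm_num, Real.rpow_natCast, mul_comm]
  have h2 : (fun x : ℝ => (1 + x) * Real.exp (-x)) =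
      fun x => Real.exp (-x) + x ^ 1 * Real.exp (-x) := by
    funext x; ring
  rw [h2, integral_add (integrableOn_exp_neg_Ioi 0) (integrableOn_pow_mul_exp 1), h1,
    integral_exp_neg_Ioi_zero]
  norm_num

/-- **Row LIM-CH-2.** -/
theorem integrableOn_maj1 (B : Finset I) (Y N : ℝ) :
    IntegrableOn (fun u : I → ℝ => ∏ i ∈ Bᶜ, (1 + u i) * Real.exp (-(u i))) (reg B (Y * N)) :=
  integrableOn_prod B (Y * N) (w := fun x => (1 + x) * Real.exp (-x)) integrableOn_one_add

/-- **Row LIM-CH-2.** -/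
theorem integral_maj1 (B : Finset I) {Y N : ℝ} (hY : 0 ≤ Y * N) :
    ∫ u in reg B (Y * N), ∏ i ∈ Bᶜ, (1 + u i) * Real.exp (-(u i)) =
      (Y * N) ^ B.card * 2 ^ Bᶜ.card := by
  rw [setIntegral_prod B hY (fun x => (1 + x) * Real.exp (-x)), integral_one_add]

/-- **Scaling lemma** with the majorant `C z * ∏_{i ∉ B} w (u i)`, support in `0 ≤ u i`,
`u i ≤ Y * N n` for `i ∈ B`. -/
theorem scale_limit_w (B : Finset I) (μ : Measure Z) [SFinite μ] (N : ℕ → ℝ)
    (hN : ∀ n, 0 < N n) (Y : ℝ) {w : ℝ → ℝ} (hw : IntegrableOn w (Set.Ioi 0))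
    (hw0 : ∀ x, 0 ≤ x → 0 ≤ w x)
    (C : Z → ℝ) (hC : Integrable C μ) (hC0 : ∀ z, 0 ≤ C z)
    (h : ℕ → (I → ℝ) × Z → E) (hl : (I → ℝ) × Z → E)
    (hm : ∀ n, AEStronglyMeasurable (h n) ((volume : Measure (I → ℝ)).prod μ))
    (hb : ∀ n u z, (∀ i, 0 ≤ u i) → (∀ i ∈ B, u i ≤ Y * N n) →
      ‖h n (u, z)‖ ≤ C z * ∏ i ∈ Bᶜ, w (u i))
    (hs : ∀ n u z, ¬ ((∀ i, 0 ≤ u i) ∧ ∀ i ∈ B, u i ≤ Y * N n) → h n (u, z) = 0)
    (hlim : ∀ᵐ p ∂((volume : Measure (I → ℝ)).prod μ),
      Tendsto (fun n => h n (dil B (N n) p.1, p.2)) atTop (𝓝 (hl p))) :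
    Tendsto (fun n => (((N n)⁻¹) ^ B.card) • ∫ p, h n p ∂((volume : Measure (I → ℝ)).prod μ))
      atTop (𝓝 (∫ p, hl p ∂((volume : Measure (I → ℝ)).prod μ))) := by
  refine scale_limit B μ N hN h hl (fun p => majw B Y w p.1 * C p.2)
    ((integrable_majw B Y hw).mul_prod hC) ?_ ?_ hlim
  · intro n
    have hqmp : Measure.QuasiMeasurePreserving (fun p : (I → ℝ) × Z => (dil B (N n) p.1, p.2))
        ((volume : Measure (I → ℝ)).prod μ) ((volume : Measure (I → ℝ)).prod μ) := by
      refine ⟨((continuous_dil B (N n)).measurable.comp measurable_fst).prodMk measurable_snd, ?_⟩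
      have h := Measure.map_prod_map (f := dil B (N n)) (g := (id : Z → Z))
        (volume : Measure (I → ℝ)) μ (continuous_dil B (N n)).measurable measurable_id
      have h3 : Prod.map (dil B (N n)) (id : Z → Z) =
        fun p : (I → ℝ) × Z => (dil B (N n) p.1, p.2) := rfl
      rw [h3, Measure.map_id, map_dil B (hN n)] at h
      rw [← h, Measure.prod_smul_left]
      exact Measure.smul_absolutelyContinuous
    exact (hm n).comp_quasiMeasurePreserving hqmp
  · intro n
    refine Eventually.of_forall fun p => ?_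
    by_cases hp : (∀ i, 0 ≤ dil B (N n) p.1 i) ∧ ∀ i ∈ B, dil B (N n) p.1 i ≤ Y * N n
    · have hreg : p.1 ∈ reg B Y := by
        refine ⟨fun i => ?_, fun i hi => ?_⟩
        · have h1 := hp.1 i
          by_cases hi : i ∈ B
          · rw [dil_mem hi] at h1
            exact nonneg_of_mul_nonneg_right h1 (hN n)
          · rwa [dil_not_mem hi] at h1
        · have h1 := hp.2 i hi
          rw [dil_mem hi, mul_comm] at h1
          exact le_of_mul_le_mul_right h1 (hN n)
      rw [majw_of_mem hreg, mul_comm]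
      refine (hb n _ _ hp.1 hp.2).trans (le_of_eq ?_)
      congr 1
      exact Finset.prod_congr rfl fun i hi => by rw [dil_not_mem (by simpa using hi)]
    · rw [hs n _ _ hp, norm_zero]
      exact mul_nonneg (majw_nonneg B Y hw0 _) (hC0 _)

end Vale.Agent.P273.H507
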