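import Vale.Agent.P273.H948.Smooth

/-!
Small disjoint models of several nodes that contain the sections through the nodes and no other
section, over a small base.
-/

noncomputable section

namespace Vale.Agent.P273.H507

open Set Filter Topology
open Vale.Agent.P273.H948 (Surf IsModel)

variable {m : ℕ} {K L : Type}

/-- Pairwise disjoint neighbourhoods of finitely many distinct points. -/
theorem exists_disj {X : Type*} [TopologicalSpace X] [T2Space X] [Finite K] {n : K → X}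
    (hn : Function.Injective n) : ∃ N : K → Set X, (∀ k, IsOpen (N k)) ∧ (∀ k, n k ∈ N k) ∧
      ∀ k k', k ≠ k' → Disjoint (N k) (N k') := by
  classical
  have h : ∀ k k', ∃ A B : Set X, k ≠ k' → IsOpen A ∧ IsOpen B ∧ n k ∈ A ∧ n k' ∈ B ∧
      Disjoint A B := by
    intro k k'
    by_cases hk : k = k'
    · exact ⟨∅, ∅, fun h => absurd hk h⟩
    · obtain ⟨A, B, h1, h2, h3, h4, h5⟩ := t2_separation (hn.ne hk)
      exact ⟨A, B, fun _ => ⟨h1, h2, h3, h4, h5⟩⟩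
  choose A B hAB using h
  refine ⟨fun k => ⋂ k', ⋂ _ : k ≠ k', A k k' ∩ B k' k, fun k => ?_, fun k => ?_,
    fun k k' hk => ?_⟩
  · refine isOpen_iInter_of_finite fun k' => isOpen_iInter_of_finite fun h => ?_
    exact (hAB k k' h).1.inter (hAB k' k h.symm).2.1
  · refine mem_iInter.2 fun k' => mem_iInter.2 fun h => ?_
    exact ⟨(hAB k k' h).2.2.1, (hAB k' k h.symm).2.2.2.1⟩
  · refine Set.disjoint_left.2 fun x hx hx' => ?_
    have h1 := (mem_iInter.1 (mem_iInter.1 hx k') hk).1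
    have h2 := (mem_iInter.1 (mem_iInter.1 hx' k) hk.symm).2
    exact Set.disjoint_left.1 (hAB k k' hk).2.2.2.2 h1 h2

/-- **Small disjoint models.** -/
theorem exists_models [Finite K] [Finite L] {X₀ : Surf m} {P : L → (Fin m → ℂ) → X₀.X}
    {c : Fin m → ℂ} (hP : ∀ j, ContinuousAt (P j) c) {n : K → X₀.X}
    (hn : Function.Injective n) {U : K → Set X₀.X} {u v : K → X₀.X → ℂ}
    {t : K → (Fin m → ℂ) → ℂ} {uf vf : K → L → (Fin m → ℂ) → ℂ}
    (hm : ∀ k, IsModel X₀.π X₀.hol (U k) (u k) (v k) (t k)) (hU : ∀ k, n k ∈ U k)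
    (hco : ∀ k j, P j c = n k → ∀ᶠ b in 𝓝 c, u k (P j b) = uf k j b ∧ v k (P j b) = vf k j b) :
    ∃ (W : Set (Fin m → ℂ)) (Uc : K → Set X₀.X), IsOpen W ∧ c ∈ W ∧
      (∀ k, IsModel X₀.π X₀.hol (Uc k) (u k) (v k) (t k)) ∧ (∀ k, n k ∈ Uc k) ∧
      (∀ k, Uc k ⊆ U k) ∧ (∀ k k', k ≠ k' → Disjoint (Uc k) (Uc k')) ∧
      (∀ k j, P j c = n k → ∀ b ∈ W, P j b ∈ Uc k ∧ u k (P j b) = uf k j b ∧
        v k (P j b) = vf k j b) ∧
      ∀ k j, P j c ≠ n k → ∀ b ∈ W, P j b ∉ Uc k := by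
  classical
  have := X₀.t2
  obtain ⟨N, hNo, hNn, hNd⟩ := exists_disj hn
  have h1 : ∀ k j, ∃ A B : Set X₀.X, IsOpen A ∧ IsOpen B ∧ n k ∈ A ∧
      (P j c ≠ n k → P j c ∈ B ∧ Disjoint A B) := by
    intro k j
    by_cases h : P j c = n k
    · exact ⟨univ, univ, isOpen_univ, isOpen_univ, mem_univ _, fun h' => absurd h h'⟩
    · obtain ⟨A, B, h1, h2, h3, h4, h5⟩ := t2_separation (Ne.symm h)
      exact ⟨A, B, h1, h2, h3, fun _ => ⟨h4, h5⟩⟩
  choose A B hA hB hnA hAB using h1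
  set Uc : K → Set X₀.X := fun k => U k ∩ N k ∩ ⋂ j, A k j with hUc
  have hUo : ∀ k, IsOpen (Uc k) := fun k =>
    (((hm k).isOpen.inter (hNo k)).inter (isOpen_iInter_of_finite fun j => hA k j))
  have hUn : ∀ k, n k ∈ Uc k := fun k => ⟨⟨hU k, hNn k⟩, mem_iInter.2 fun j => hnA k j⟩
  have h2 : ∀ k j, ∀ᶠ b in 𝓝 c, (P j c = n k → P j b ∈ Uc k ∧ u k (P j b) = uf k j b ∧
      v k (P j b) = vf k j b) ∧ (P j c ≠ n k → P j b ∉ Uc k) := by
    intro k j
    by_cases h : P j c = n k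
    · have h3 : ∀ᶠ b in 𝓝 c, P j b ∈ Uc k := (hP j).eventually ((hUo k).mem_nhds (by
        rw [h]; exact hUn k))
      filter_upwards [h3, hco k j h] with b h4 h5
      exact ⟨fun _ => ⟨h4, h5⟩, fun h' => absurd h h'⟩
    · have h3 : ∀ᶠ b in 𝓝 c, P j b ∈ B k j := (hP j).eventually ((hB k j).mem_nhds (hAB k j h).1)
      filter_upwards [h3] with b h4
      exact ⟨fun h' => absurd h' h, fun _ h5 =>
        Set.disjoint_left.1 (hAB k j h).2 (mem_iInter.1 h5.2 j) h4⟩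
  have h3 : ∀ᶠ b in 𝓝 c, ∀ k j, (P j c = n k → P j b ∈ Uc k ∧ u k (P j b) = uf k j b ∧
      v k (P j b) = vf k j b) ∧ (P j c ≠ n k → P j b ∉ Uc k) :=
    eventually_all.2 fun k => eventually_all.2 fun j => h2 k j
  obtain ⟨W, hW, hWo, hcW⟩ := mem_nhds_iff.1 h3
  refine ⟨W, Uc, hWo, hcW, fun k => (hm k).mono (hUo k) fun x hx => hx.1.1, hUn,
    fun k x hx => hx.1.1, fun k k' hk => ?_, fun k j h b hb => (hW hb k j).1 h,
    fun k j h b hb => (hW hb k j).2 h⟩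
  exact (hNd k k' hk).mono (fun x hx => hx.1.2) fun x hx => hx.1.2

end Vale.Agent.P273.H507

end
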