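import Vale.Agent.P273.H507.Push
import Vale.Agent.P273.H591.Dense

/-!
Comparison of two families with contractions to the start family: they are isomorphic over the
points where all positions are distinct smooth points.
-/

noncomputable section

namespace Vale.Agent.P273.H507

open Set Filter Topology H183
open scoped ContDiff
open Vale.Agent.P273.H948 (Surf PFam IsModel IsSec State)

variable {L : Type} {m m' : ℕ}

/-- **The morphism between two families with contractions over good points.** -/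
theorem exists_isMor {C : Fam L m} {C' T' : Fam L m'} {X₀ : Surf m} {X₀' : Surf m'}
    {P : L → (Fin m → ℂ) → X₀.X} {P' : L → (Fin m' → ℂ) → X₀'.X} {r : C.X → X₀.X}
    {r' : C'.X → X₀'.X} (hC : C.IsStable)
    (hr : Ctr C X₀ P r) (hr' : Ctr C' X₀' P' r')
    {φ : (Fin m' → ℂ) → Fin m → ℂ} {T : X₀'.X → X₀.X}
    (hφ : ∀ b ∈ C'.B, AnalyticAt ℂ φ b) (hφB : ∀ b ∈ C'.B, φ b ∈ C.B)
    (hT : SMap X₀' X₀ C'.B φ T) (hP : ∀ j, ∀ b ∈ C'.B, T (P' j b) = P j (φ b))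
    {D : Set (Fin m → ℂ)} (hD : IsOpen D) (hDB : D ⊆ C.B) (hDg : ∀ b ∈ D, Good X₀ P b)
    {D' : Set (Fin m' → ℂ)} (hDB' : D' ⊆ C'.B) (hDg' : ∀ b ∈ D', Good X₀' P' b)
    (hDD : ∀ b ∈ D', φ b ∈ D) {ι : T'.X → C'.X} (hι : IsRestr C' D' T' ι) (c₀ : C.X) :
    IsMor T' C φ (fun x => rinv C X₀ r c₀ (T (r' (ι x)))) := by
  have hB := hι.B
  have hπ : ∀ x, T'.π x ∈ T'.B := hι.stable.2.2.1
  have hπ' : ∀ x, X₀'.π (r' (ι x)) = T'.π x := fun x => by rw [hr'.π_r, hι.π]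
  have hπ2 : ∀ x, T'.π x ∈ T'.B → X₀.π (T (r' (ι x))) = φ (T'.π x) := fun x hx => by
    rw [hT.π _ (by rw [hπ']; exact hDB' (hB ▸ hx)), hπ']
  have hc : Continuous (fun x => rinv C X₀ r c₀ (T (r' (ι x)))) := by
    rw [continuous_iff_continuousAt]
    intro x
    have hx : T'.π x ∈ D' := hB ▸ hπ x
    have h1 : ContinuousAt (fun x => r' (ι x)) x :=
      (hr'.cont.comp hι.emb.continuous).continuousAt
    have h2 : ContinuousAt T (r' (ι x)) := hT.cont _ (by rw [hπ']; exact hDB' hx)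
    have h3 : ContinuousAt (rinv C X₀ r c₀) (T (r' (ι x))) :=
      hr.cont_rinv hC hD hDB hDg c₀ (by rw [hπ2 x (hπ x)]; exact hDD _ hx)
    exact ContinuousAt.comp (f := fun x => T (r' (ι x))) h3
      (ContinuousAt.comp (f := fun x => r' (ι x)) h2 h1)
  have hrr : ∀ x, r (rinv C X₀ r c₀ (T (r' (ι x)))) = T (r' (ι x)) := by
    intro x
    have hx : T'.π x ∈ D' := hB ▸ hπ x
    have h1 : X₀.π (T (r' (ι x))) ∈ D := by rw [hπ2 x (hπ x)]; exact hDD _ hx
    exact r_rinv (hr.exists_r (hDB h1) (hDg _ h1))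
  refine ⟨fun b hb => ?_, hc, fun f p hf => ?_⟩
  · have hb' : b ∈ D' := hB ▸ hb
    have hbC' := hDB' hb'
    have hφD := hDD b hb'
    refine ⟨hφB b hbC', hφ b hbC', ⟨?_, ?_, ?_⟩, fun i => ?_⟩
    · intro x hx
      have hx : T'.π x = b := hx
      change C.π _ = φ b
      rw [← hr.π_r, hrr, hπ2 x (hπ x), hx]
    · intro x hx y hy e
      have hx : T'.π x = b := hx
      have hy : T'.π y = b := hy
      have e1 := congrArg r e
      simp only [hrr] at e1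
      have e2 := (hT.bij b hbC').injOn (by change X₀'.π _ = b; rw [hπ', hx])
        (by change X₀'.π _ = b; rw [hπ', hy]) e1
      have e3 := (hr'.bij b hbC' (hDg' b hb')).injOn (by change C'.π _ = b; rw [hι.π, hx])
        (by change C'.π _ = b; rw [hι.π, hy]) e2
      exact hι.emb.injective e3
    · intro z hz
      have hz : C.π z = φ b := hz
      obtain ⟨y, hy, e⟩ := (hT.bij b hbC').surjOn (a := r z)
        (by change X₀.π _ = φ b; rw [hr.π_r, hz])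
      obtain ⟨x, hx, e'⟩ := (hr'.bij b hbC' (hDg' b hb')).surjOn hy
      have hx : C'.π x = b := hx
      obtain ⟨x', rfl⟩ := hι.ex x (by rw [hx]; exact hb')
      refine ⟨x', (hι.π x').symm.trans hx, ?_⟩
      change rinv C X₀ r c₀ (T (r' (ι x'))) = z
      rw [e', e]
      exact hr.rinv_r (by rw [hz]; exact hφB b hbC') (by rw [hz]; exact hDg _ hφD)
    · change rinv C X₀ r c₀ (T (r' (ι (T'.s i b)))) = C.s i (φ b)
      rw [hι.s i b hb', hr'.rs i b hbC', hP i b hbC', ← hr.rs i _ (hφB b hbC')]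
      have h1 : C.π (C.s i (φ b)) = φ b := ((hC.2.2.2.2.2 _ (hφB b hbC')).2.1 i).1
      exact hr.rinv_r (by rw [h1]; exact hφB b hbC') (by rw [h1]; exact hDg _ hφD)
  · have hx : T'.π p ∈ D' := hB ▸ hπ p
    set q : C.X := rinv C X₀ r c₀ (T (r' (ι p))) with hq
    have hqπ : C.π q ∈ D := by rw [← hr.π_r, hrr, hπ2 p (hπ p)]; exact hDD _ hx
    obtain ⟨g, hg, e⟩ := hr.push hC hD hDB hDg hqπ hf
    rw [hrr] at hg
    have h1 : C'.hol (g ∘ T ∘ r') (ι p) :=
      hr'.pull _ (g ∘ T) (hT.hol _ (by rw [hπ']; exact hDB' hx) g hg)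
    refine (hι.hol p _).2 ⟨_, h1, ?_⟩
    have h2 : ∀ᶠ x in 𝓝 p, f (rinv C X₀ r c₀ (T (r' (ι x)))) =
        g (r (rinv C X₀ r c₀ (T (r' (ι x))))) := hc.continuousAt.eventually e
    filter_upwards [h2] with x hx2
    simp only [Function.comp_apply]
    rw [hx2, hrr]

/-- The good points form an open set. -/
theorem Ctr.isOpen_good [Finite L] {C : Fam L m} {X₀ : Surf m} {P : L → (Fin m → ℂ) → X₀.X}
    {r : C.X → X₀.X} (hr : Ctr C X₀ P r) (hC : C.IsStable) :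
    IsOpen {b | b ∈ C.B ∧ Good X₀ P b} := by
  have hcont : ∀ j, ∀ b ∈ C.B, ContinuousAt (P j) b := by
    intro j b hb
    have h1 : ContinuousAt (fun b => r (C.s j b)) b :=
      ContinuousAt.comp (f := C.s j) hr.cont.continuousAt ((hC.2.2.2.2.2 b hb).2.1 j).2.1
    refine h1.congr ?_
    filter_upwards [hC.1.mem_nhds hb] with c hc
    exact hr.rs j c hc
  rw [isOpen_iff_mem_nhds]
  rintro b ⟨hb, h1, h2⟩
  have e1 : ∀ᶠ c in 𝓝 b, ∀ j, X₀.SmoothAt (P j c) := by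
    rw [eventually_all]
    intro j
    exact (hcont j b hb).eventually (X₀.smoothAt_open.mem_nhds (h1 j))
  have e2 : ∀ᶠ c in 𝓝 b, ∀ i j, P i c = P j c → i = j := by
    rw [eventually_all]
    intro i
    rw [eventually_all]
    intro j
    by_cases hij : i = j
    · exact Eventually.of_forall fun _ _ => hij
    · have : ∀ᶠ c in 𝓝 b, P i c ≠ P j c := by
        have h3 : P i b ≠ P j b := fun e => hij (h2 i j e)
        exact ((hcont i b hb).tendsto.prodMk_nhds (hcont j b hb).tendsto).eventually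
          (isOpen_ne_fun continuous_fst continuous_snd |>.mem_nhds h3)
      filter_upwards [this] with c hc e
      exact absurd e hc
  filter_upwards [hC.1.mem_nhds hb, e1, e2] with c h3 h4 h5
  exact ⟨h3, h4, h5⟩

variable {C : Fam L m} {C' : Fam L m'} {X₀ : Surf m} {X₀' : Surf m'}
  {P : L → (Fin m → ℂ) → X₀.X} {P' : L → (Fin m' → ℂ) → X₀'.X} {r : C.X → X₀.X}
  {r' : C'.X → X₀'.X} {k : ℕ} {F : ∀ m, Fam L m → (Fin m → ℂ) → (Fin m → ℂ) [⋀^Fin k]→L[ℝ] ℝ}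
  {φ : (Fin m' → ℂ) → Fin m → ℂ} {T : X₀'.X → X₀.X}

/-- **The form at a good point.** -/
theorem F_eq_good [Finite L] (hF : IsClosedForm L k F) (hC : C.IsStable) (hC' : C'.IsStable)
    (hr : Ctr C X₀ P r) (hr' : Ctr C' X₀' P' r')
    (hφ : ∀ b ∈ C'.B, AnalyticAt ℂ φ b) (hφB : ∀ b ∈ C'.B, φ b ∈ C.B)
    (hT : SMap X₀' X₀ C'.B φ T) (hP : ∀ j, ∀ b ∈ C'.B, T (P' j b) = P j (φ b))
    {b : Fin m' → ℂ} (hb : b ∈ C'.B) (hg' : Good X₀' P' b) (hg : Good X₀ P (φ b)) :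
    F m' C' b = (F m C (φ b)).compContinuousLinearMap (fderiv ℝ φ b) := by
  set D : Set (Fin m → ℂ) := {b | b ∈ C.B ∧ Good X₀ P b} with hDdef
  have hD : IsOpen D := hr.isOpen_good hC
  have hD1 : IsOpen {b | b ∈ C'.B ∧ Good X₀' P' b} := hr'.isOpen_good hC'
  set D' : Set (Fin m' → ℂ) := {b | b ∈ C'.B ∧ Good X₀' P' b} ∩ φ ⁻¹' D with hD'def
  have hD' : IsOpen D' := by
    rw [isOpen_iff_mem_nhds]
    rintro c ⟨hc, hc'⟩
    exact inter_mem (hD1.mem_nhds hc) ((hφ c hc.1).continuousAt (hD.mem_nhds hc'))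
  have hbD : b ∈ D' := ⟨⟨hb, hg'⟩, hφB b hb, hg⟩
  obtain ⟨T', ι, hι⟩ := exists_restr hC' hD' (fun c hc => hc.1.1) ⟨b, hbD⟩
  have c₀ : C.X := ((hC.2.2.2.2.2 _ (hφB b hb)).1.nonempty).choose
  have hm := exists_isMor hC hr hr' hφ hφB hT hP hD (fun c hc => hc.1) (fun c hc => hc.2)
    (D' := D') (fun c hc => hc.1.1) (fun c hc => hc.1.2) (fun c hc => hc.2) hι c₀
  rw [← hι.F_eq (fun c hc => hc.1.1) hC' hF hbD]
  exact hF.2 m m' C T' φ _ hC hι.stable hm b (hι.B ▸ hbD)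

/-- **The form at all points, if the good points are dense.** -/
theorem F_eq [Finite L] (hF : IsClosedForm L k F) (hC : C.IsStable) (hC' : C'.IsStable)
    (hr : Ctr C X₀ P r) (hr' : Ctr C' X₀' P' r')
    (hφ : ∀ b ∈ C'.B, AnalyticAt ℂ φ b) (hφB : ∀ b ∈ C'.B, φ b ∈ C.B)
    (hT : SMap X₀' X₀ C'.B φ T) (hP : ∀ j, ∀ b ∈ C'.B, T (P' j b) = P j (φ b))
    (hd : C'.B ⊆ closure {b | Good X₀' P' b ∧ Good X₀ P (φ b)})
    {b : Fin m' → ℂ} (hb : b ∈ C'.B) :
    F m' C' b = (F m C (φ b)).compContinuousLinearMap (fderiv ℝ φ b) := by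
  have hs : ContDiffOn ℝ 1 φ C'.B := fun c hc =>
    ((hφ c hc).contDiffAt.restrict_scalars ℝ).contDiffWithinAt
  exact H591.pullback_of_dense (V := C.B) hC'.1 (hF.1 m' C' hC').1.continuousOn
    (hF.1 m C hC).1.continuousOn hs hφB hd
    (fun c hc => F_eq_good hF hC hC' hr hr' hφ hφB hT hP hc.1 hc.2.1 hc.2.2) b hb

end Vale.Agent.P273.H507

end
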