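import Vale.Agent.P273.H507.Ctr
import Vale.Agent.P273.H183.Chart

/-!
A contraction of families of nodal curves that is bijective on the fibres is an isomorphism.
-/

noncomputable section

namespace Vale.Agent.P273.H507

open Set Filter Topology H183
open Vale.Agent.P273.H948 (Surf PFam IsModel IsSec State Emap Mset Amb)

variable {L : Type} {m : ℕ}

/-- An injective holomorphic function has nonvanishing derivative. -/
theorem deriv_ne_zero_of_injOn {f : ℂ → ℂ} {z₀ : ℂ} (hfa : AnalyticAt ℂ f z₀) {U : Set ℂ}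
    (hnhds : U ∈ 𝓝 z₀) (hf2 : InjOn f U) : deriv f z₀ ≠ 0 := by
  intro hd
  have hz : z₀ ∈ U := mem_of_mem_nhds hnhds
  have hφ : AnalyticAt ℂ (fun z => f z - f z₀) z₀ := hfa.sub analyticAt_const
  have hnz : ¬ ∀ᶠ z in 𝓝 z₀, f z - f z₀ = 0 := by
    intro h
    have h2 : ∀ᶠ z in 𝓝[≠] z₀, f z - f z₀ = 0 ∧ z ∈ U :=
      (h.and hnhds).filter_mono nhdsWithin_le_nhds
    obtain ⟨z, ⟨h3, h4⟩, h5⟩ := (h2.and self_mem_nhdsWithin).exists
    exact h5 (hf2 h4 hz (sub_eq_zero.mp h3))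
  obtain ⟨n, g, hg, hg0, hgn⟩ := (hφ.exists_eventuallyEq_pow_smul_nonzero_iff).mpr hnz
  have hn0 : n ≠ 0 := by
    rintro rfl
    have := hgn.self_of_nhds
    simp at this
    exact hg0 this.symm
  have hn1 : n ≠ 1 := by
    rintro rfl
    have h1 : HasDerivAt (fun z => (z - z₀) ^ 1 • g z) (g z₀) z₀ := by
      have := ((hasDerivAt_id z₀).sub_const z₀).fun_mul hg.differentiableAt.hasDerivAt
      simpa using this
    have h2 : HasDerivAt (fun z => f z - f z₀) (g z₀) z₀ := h1.congr_of_eventuallyEq hgn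
    have h3 : HasDerivAt (fun z => f z - f z₀) (deriv f z₀) z₀ :=
      (hfa.differentiableAt.hasDerivAt).sub_const _
    exact hg0 ((h2.unique h3).trans hd)
  obtain ⟨c, hc⟩ := IsAlgClosed.exists_pow_nat_eq (g z₀) (Nat.pos_of_ne_zero hn0)
  have hc0 : c ≠ 0 := by
    rintro rfl
    rw [zero_pow hn0] at hc
    exact hg0 hc.symm
  set k : ℂ → ℂ := fun z => Complex.exp (Complex.log (g z / g z₀) / n) with hk
  have hnC : (n : ℂ) ≠ 0 := by exact_mod_cast hn0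
  have hkn : ∀ᶠ z in 𝓝 z₀, k z ^ n = g z / g z₀ := by
    have : ∀ᶠ z in 𝓝 z₀, g z ≠ 0 := hg.continuousAt.eventually_ne hg0
    filter_upwards [this] with z hz
    rw [hk]
    simp only
    rw [← Complex.exp_nat_mul, mul_div_cancel₀ _ hnC, Complex.exp_log (div_ne_zero hz hg0)]
  have hk0 : k z₀ = 1 := by simp [hk, div_self hg0]
  have hkd : AnalyticAt ℂ k z₀ := by
    have h1 : AnalyticAt ℂ (fun z => g z / g z₀) z₀ := hg.div analyticAt_const hg0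
    have h2 : AnalyticAt ℂ (fun z => Complex.log (g z / g z₀)) z₀ := by
      apply h1.clog
      rw [div_self hg0]
      exact Complex.one_mem_slitPlane
    exact (h2.div analyticAt_const hnC).cexp
  set h : ℂ → ℂ := fun z => (z - z₀) * (c * k z) with hh
  have hha : AnalyticAt ℂ h z₀ := by
    exact (analyticAt_id.sub analyticAt_const).mul (analyticAt_const.mul hkd)
  have hhd : HasDerivAt h c z₀ := by
    have := ((hasDerivAt_id z₀).sub_const z₀).mul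
      ((hasDerivAt_const z₀ c).mul hkd.differentiableAt.hasDerivAt)
    refine this.congr_deriv ?_
    simp [hk0]
  have hhs : HasStrictDerivAt h c z₀ := by
    have := hha.hasStrictDerivAt
    rwa [hhd.deriv] at this
  have hmap : map h (𝓝 z₀) = 𝓝 (h z₀) := hhs.map_nhds_eq hc0
  have hh0 : h z₀ = 0 := by simp [hh]
  have hpow : ∀ᶠ z in 𝓝 z₀, f z - f z₀ = h z ^ n := by
    filter_upwards [hgn, hkn] with z h1 h2
    rw [h1, hh]
    simp only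
    rw [mul_pow, mul_pow, h2, hc, smul_eq_mul]
    field_simp
  have hV : {z | f z - f z₀ = h z ^ n ∧ z ∈ U} ∈ 𝓝 z₀ := hpow.and hnhds
  have himg : h '' {z | f z - f z₀ = h z ^ n ∧ z ∈ U} ∈ 𝓝 (0 : ℂ) := by
    have h1 := image_mem_map (m := h) hV
    rwa [hmap, hh0] at h1
  obtain ⟨ε, hε, hball⟩ := Metric.mem_nhds_iff.mp himg
  have hprim := Complex.isPrimitiveRoot_exp n hn0
  set ω := Complex.exp (2 * Real.pi * Complex.I / n) with hω
  have hω1 : ω ≠ 1 := hprim.ne_one (by omega)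
  have hωn : ω ^ n = 1 := hprim.pow_eq_one
  have hωnorm : ‖ω‖ = 1 := Complex.norm_eq_one_of_pow_eq_one hωn hn0
  set w : ℂ := ((ε / 2 : ℝ) : ℂ) with hw
  have hwn : ‖w‖ = ε / 2 := by
    rw [hw, Complex.norm_real, Real.norm_eq_abs, abs_of_pos (by positivity)]
  have hw1 : w ∈ Metric.ball (0 : ℂ) ε := by rw [mem_ball_zero_iff, hwn]; linarith
  have hw2 : ω * w ∈ Metric.ball (0 : ℂ) ε := by
    rw [mem_ball_zero_iff, norm_mul, hωnorm, one_mul, hwn]; linarith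
  obtain ⟨z1, ⟨h11, h12⟩, h13⟩ := hball hw1
  obtain ⟨z2, ⟨h21, h22⟩, h23⟩ := hball hw2
  have heq : f z1 = f z2 := by
    have : f z1 - f z₀ = f z2 - f z₀ := by
      rw [h11, h21, h13, h23, mul_pow, hωn, one_mul]
    exact sub_left_injective this
  have hz12 := hf2 h12 h22 heq
  rw [hz12, h23] at h13
  have hw0 : w ≠ 0 := by
    intro h0
    rw [h0, norm_zero] at hwn
    linarith
  exact hω1 (mul_right_cancel₀ hw0 (by rw [h13, one_mul]))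

/-- Two analytic functions of one variable with product `0`. -/
theorem eventually_zero_or {f g : ℂ → ℂ} {z₀ : ℂ} (hf : AnalyticAt ℂ f z₀)
    (hg : AnalyticAt ℂ g z₀) (h : ∀ᶠ z in 𝓝 z₀, f z * g z = 0) :
    (∀ᶠ z in 𝓝 z₀, f z = 0) ∨ ∀ᶠ z in 𝓝 z₀, g z = 0 := by
  rcases hf.eventually_eq_zero_or_eventually_ne_zero with h1 | h1
  · exact Or.inl h1
  · right
    rcases hg.eventually_eq_zero_or_eventually_ne_zero with h2 | h2
    · exact h2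
    · exfalso
      have h3 : ∀ᶠ z in 𝓝[≠] z₀, False := by
        filter_upwards [h1, h2, h.filter_mono nhdsWithin_le_nhds] with z a1 a2 a3
        exact (mul_ne_zero a1 a2) a3
      exact (Filter.eventually_false_iff_eq_bot.1 h3 : 𝓝[≠] z₀ = ⊥) |>
        fun h => (NormedField.nhdsNE_neBot z₀).ne h

/-- A triangular derivative is invertible. -/
theorem amb_inv {h₁ h₂ : Amb m → ℂ} {b₀ : Fin m → ℂ} {c d : ℂ}
    (a₁ : AnalyticAt ℂ h₁ (b₀, c, d)) (a₂ : AnalyticAt ℂ h₂ (b₀, c, d))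
    (d1 : deriv (fun z => h₁ (b₀, z, d)) c ≠ 0) (d2 : deriv (fun z => h₁ (b₀, c, z)) d = 0)
    (d3 : deriv (fun z => h₂ (b₀, c, z)) d ≠ 0) :
    ∃ D : Amb m ≃L[ℂ] Amb m, HasFDerivAt (fun p : Amb m => ((p.1, h₁ p, h₂ p) : Amb m))
      (D : Amb m →L[ℂ] Amb m) (b₀, c, d) := by
  set L₁ := fderiv ℂ h₁ (b₀, c, d) with hL₁
  set L₂ := fderiv ℂ h₂ (b₀, c, d) with hL₂
  have e1 : HasFDerivAt h₁ L₁ (b₀, c, d) := a₁.differentiableAt.hasFDerivAt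
  have e2 : HasFDerivAt h₂ L₂ (b₀, c, d) := a₂.differentiableAt.hasFDerivAt
  have cu : HasDerivAt (fun z : ℂ => ((b₀, z, d) : Amb m)) (0, 1, 0) c :=
    (hasDerivAt_const c b₀).prodMk ((hasDerivAt_id c).prodMk (hasDerivAt_const c d))
  have cv : HasDerivAt (fun z : ℂ => ((b₀, c, z) : Amb m)) (0, 0, 1) d :=
    (hasDerivAt_const d b₀).prodMk ((hasDerivAt_const d c).prodMk (hasDerivAt_id d))
  have f1 : deriv (fun z => h₁ (b₀, z, d)) c = L₁ (0, 1, 0) :=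
    (e1.comp_hasDerivAt (f := fun z : ℂ => ((b₀, z, d) : Amb m)) c cu).deriv
  have f2 : deriv (fun z => h₁ (b₀, c, z)) d = L₁ (0, 0, 1) :=
    (e1.comp_hasDerivAt (f := fun z : ℂ => ((b₀, c, z) : Amb m)) d cv).deriv
  have f3 : deriv (fun z => h₂ (b₀, c, z)) d = L₂ (0, 0, 1) :=
    (e2.comp_hasDerivAt (f := fun z : ℂ => ((b₀, c, z) : Amb m)) d cv).deriv
  rw [f1] at d1
  rw [f2] at d2
  rw [f3] at d3
  set Λ : Amb m →L[ℂ] Amb m := (ContinuousLinearMap.fst ℂ _ _).prod (L₁.prod L₂) with hΛ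
  have hH : HasFDerivAt (fun p : Amb m => ((p.1, h₁ p, h₂ p) : Amb m)) Λ (b₀, c, d) :=
    hasFDerivAt_fst.prodMk (e1.prodMk e2)
  have dec : ∀ y z : ℂ, ((0, y, z) : Amb m) = y • (0, 1, 0) + z • (0, 0, 1) := by
    intro y z
    refine Prod.ext ?_ (Prod.ext ?_ ?_) <;> simp
  have hinj : Function.Injective (Λ : Amb m →ₗ[ℂ] Amb m) := by
    rw [injective_iff_map_eq_zero]
    rintro ⟨x, y, z⟩ hp
    have q1 : x = 0 := congrArg Prod.fst hp
    subst q1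
    have q2 : L₁ (0, y, z) = 0 := congrArg (fun p : Amb m => p.2.1) hp
    have q3 : L₂ (0, y, z) = 0 := congrArg (fun p : Amb m => p.2.2) hp
    rw [dec, map_add, map_smul, map_smul, d2, smul_zero, add_zero, smul_eq_mul] at q2
    have hy : y = 0 := (mul_eq_zero.1 q2).resolve_right d1
    subst hy
    rw [dec, map_add, map_smul, map_smul, zero_smul, zero_add, smul_eq_mul] at q3
    have hz : z = 0 := (mul_eq_zero.1 q3).resolve_right d3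
    subst hz
    rfl
  refine ⟨(LinearEquiv.ofInjectiveEndo (Λ : Amb m →ₗ[ℂ] Amb m) hinj).toContinuousLinearEquiv, ?_⟩
  refine hH.congr_fderiv ?_
  exact ContinuousLinearMap.ext fun p => rfl

section lift

variable {X : Type} [TopologicalSpace X] {π : X → Fin m → ℂ}
  {hol : X → (X → ℂ) → Prop} {U : Set X} {u v : X → ℂ} {t : (Fin m → ℂ) → ℂ}

/-- Points of the surface over a curve in the model. -/
theorem lift_curve (h : IsModel π hol U u v t) {x : X} (hx : x ∈ U) {Q : X → Prop}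
    (hQ : ∀ᶠ y in 𝓝 x, Q y) {γ : ℂ → Amb m} {z₀ : ℂ} (hγ : ContinuousAt γ z₀)
    (h0 : γ z₀ = Emap π u v x) (hM : ∀ᶠ z in 𝓝 z₀, γ z ∈ Mset t) :
    ∀ᶠ z in 𝓝 z₀, ∃ y, Q y ∧ Emap π u v y = γ z := by
  have h1 : ∀ᶠ p in 𝓝[Mset t] (Emap π u v x), ∃ y, Q y ∧ Emap π u v y = p := by
    rw [← h.nhds x hx, Filter.eventually_map]
    filter_upwards [hQ] with y hy
    exact ⟨y, hy, rfl⟩
  have h2 : Tendsto γ (𝓝 z₀) (𝓝[Mset t] (Emap π u v x)) := by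
    refine tendsto_nhdsWithin_iff.2 ⟨?_, hM⟩
    rw [← h0]; exact hγ
  exact h2.eventually h1

/-- At a node the coordinate `u` does not vanish on the fibre. -/
theorem node_not_zero (h : IsModel π hol U u v t) {x : X} (hx : x ∈ U) (hu : u x = 0)
    (hv : v x = 0) : ¬ ∀ᶠ y in 𝓝 x, π y = π x → u y = 0 := by
  intro h1
  have ht : t (π x) = 0 := by rw [← h.eqn x hx, hu, zero_mul]
  have hE : Emap π u v x = (π x, 0, 0) := by simp [Emap, hu, hv]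
  have h2 := lift_curve h hx (h1.and (h.isOpen.mem_nhds hx)) (γ := fun z => (π x, z, 0))
    (z₀ := 0) (by fun_prop) hE.symm (Eventually.of_forall fun z => by
      change z * 0 = t (π x)
      rw [ht, mul_zero])
  obtain ⟨z, ⟨y, ⟨hy, -⟩, hE'⟩, hz⟩ :=
    ((h2.filter_mono nhdsWithin_le_nhds).and (self_mem_nhdsWithin (a := (0 : ℂ)) (s := {0}ᶜ))).exists
  have e1 : π y = π x := congrArg Prod.fst hE'
  have e2 : u y = z := congrArg (fun p : Amb m => p.2.1) hE'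
  exact hz (by rw [← e2]; exact hy e1)

end lift

section main

variable {S X₀ : Surf m} {r : S.X → X₀.X} {x : S.X}

/-- The conclusion from an ambient biholomorphic map. -/
theorem push_of_amb {U : Set S.X} {u v : S.X → ℂ} {t : (Fin m → ℂ) → ℂ}
    (h : IsModel S.π S.hol U u v t) (hx : x ∈ U)
    {U₀ : Set X₀.X} {u₀ v₀ : X₀.X → ℂ} {t₀ : (Fin m → ℂ) → ℂ}
    (h₀ : IsModel X₀.π X₀.hol U₀ u₀ v₀ t₀) (hrx : r x ∈ U₀)
    (hπ : ∀ y, X₀.π (r y) = S.π y)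
    {h₁ h₂ : Amb m → ℂ} (a₁ : AnalyticAt ℂ h₁ (Emap S.π u v x))
    (a₂ : AnalyticAt ℂ h₂ (Emap S.π u v x))
    (e₁ : ∀ᶠ y in 𝓝 x, u₀ (r y) = h₁ (Emap S.π u v y))
    (e₂ : ∀ᶠ y in 𝓝 x, v₀ (r y) = h₂ (Emap S.π u v y))
    {D : Amb m ≃L[ℂ] Amb m} (hD : HasFDerivAt (fun p : Amb m => ((p.1, h₁ p, h₂ p) : Amb m))
      (D : Amb m →L[ℂ] Amb m) (Emap S.π u v x)) {f : S.X → ℂ} (hf : S.hol x f) :
    ∃ g, X₀.hol (r x) g ∧ f =ᶠ[𝓝 x] g ∘ r := by
  have hΨ : AnalyticAt ℂ (fun p : Amb m => ((p.1, h₁ p, h₂ p) : Amb m)) (Emap S.π u v x) :=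
    analyticAt_fst.prod (a₁.prod a₂)
  obtain ⟨R, hR, hs, -, han, hsy⟩ := exists_inv hΨ D hD univ_mem
  have hE : ∀ᶠ y in 𝓝 x, Emap X₀.π u₀ v₀ (r y) = R (Emap S.π u v y) := by
    have : ∀ᶠ y in 𝓝 x, Emap S.π u v y ∈ R.source :=
      (h.cont hx).eventually (R.open_source.mem_nhds hs)
    filter_upwards [e₁, e₂, this] with y h1 h2 h3
    rw [hR _ h3]
    simp only [Emap, hπ, h1, h2]
  obtain ⟨k, hk, ek⟩ := (h.hol x hx f).1 hf
  refine ⟨k ∘ R.symm ∘ Emap X₀.π u₀ v₀, (h₀.hol _ hrx _).2 ⟨k ∘ R.symm, ?_, EventuallyEq.rfl⟩, ?_⟩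
  · have h1 := hE.self_of_nhds
    rw [h1]
    refine AnalyticAt.comp ?_ (hsy _ (R.map_source hs))
    rw [R.left_inv hs]
    exact hk
  · have : ∀ᶠ y in 𝓝 x, Emap S.π u v y ∈ R.source :=
      (h.cont hx).eventually (R.open_source.mem_nhds hs)
    filter_upwards [hE, ek, this] with y h1 h2 h3
    simp only [Function.comp_apply] at h2 ⊢
    rw [h1, R.left_inv h3, h2]

/-- Injectivity along a curve. -/
theorem inj_curve {U : Set S.X} {u v : S.X → ℂ} {t : (Fin m → ℂ) → ℂ}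
    (h : IsModel S.π S.hol U u v t) (hx : x ∈ U)
    {U₀ : Set X₀.X} {u₀ v₀ : X₀.X → ℂ} {t₀ : (Fin m → ℂ) → ℂ}
    (h₀ : IsModel X₀.π X₀.hol U₀ u₀ v₀ t₀) (hrx : r x ∈ U₀)
    (hπ : ∀ y, X₀.π (r y) = S.π y) (hc : ContinuousAt r x)
    {U₁ : Set S.X} (hU₁ : U₁ ∈ 𝓝 x) (hinj : InjOn r U₁) {h₁ : Amb m → ℂ}
    (e₁ : ∀ᶠ y in 𝓝 x, u₀ (r y) = h₁ (Emap S.π u v y))
    {γ : ℂ → Amb m} {z₀ : ℂ} (hγ : ContinuousAt γ z₀)
    (h0 : γ z₀ = Emap S.π u v x) (hM : ∀ᶠ z in 𝓝 z₀, γ z ∈ Mset t)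
    (hγi : ∀ z z', γ z = γ z' → z = z') (hγb : ∀ z, (γ z).1 = S.π x)
    (hdet : ∃ N ∈ 𝓝 x, ∀ y ∈ N, ∀ y' ∈ N, Emap S.π u v y ∈ range γ → Emap S.π u v y' ∈ range γ →
      u₀ (r y) = u₀ (r y') → v₀ (r y) = v₀ (r y')) :
    ∃ V ∈ 𝓝 z₀, InjOn (fun z => h₁ (γ z)) V := by
  obtain ⟨N, hN, hd⟩ := hdet
  have h1 : ∀ᶠ y in 𝓝 x, r y ∈ U₀ := hc.eventually (h₀.isOpen.mem_nhds hrx)
  have h2 := lift_curve h hx ((Filter.eventually_mem_set.2 hN).and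
    ((Filter.eventually_mem_set.2 hU₁).and (h1.and e₁))) hγ h0 hM
  refine ⟨_, h2, ?_⟩
  rintro z ⟨y, ⟨hyN, hyU, hyr, hye⟩, hyE⟩ z' ⟨y', ⟨hyN', hyU', hyr', hye'⟩, hyE'⟩ e
  simp only at e
  have q1 : u₀ (r y) = u₀ (r y') := by rw [hye, hye', hyE, hyE', e]
  have q2 := hd y hyN y' hyN' ⟨z, hyE.symm⟩ ⟨z', hyE'.symm⟩ q1
  have q3 : S.π y = S.π y' := by
    have p1 : S.π y = S.π x := by rw [← hγb z, ← hyE]; rfl
    have p2 : S.π y' = S.π x := by rw [← hγb z', ← hyE']; rfl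
    rw [p1, p2]
  have q4 : r y = r y' := by
    refine h₀.inj hyr hyr' ?_
    simp only [Emap, hπ, q1, q2, q3]
  have q5 : y = y' := hinj hyU hyU' q4
  exact hγi z z' (by rw [← hyE, ← hyE', q5])

/-- A smooth point does not go to a node. -/
theorem case_A2 {U : Set S.X} {u v : S.X → ℂ} {t : (Fin m → ℂ) → ℂ}
    (h : IsModel S.π S.hol U u v t) (hx : x ∈ U) (hu : u x ≠ 0)
    {U₀ : Set X₀.X} {u₀ v₀ : X₀.X → ℂ} {t₀ : (Fin m → ℂ) → ℂ}
    (h₀ : IsModel X₀.π X₀.hol U₀ u₀ v₀ t₀) (hrx : r x ∈ U₀) (hu₀ : u₀ (r x) = 0)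
    (hv₀ : v₀ (r x) = 0) (hπ : ∀ y, X₀.π (r y) = S.π y) (hc : ContinuousAt r x)
    (hopen : 𝓝 (r x) ≤ map r (𝓝 x))
    (pull : ∀ g, X₀.hol (r x) g → S.hol x (g ∘ r)) : False := by
  obtain ⟨h₁, a₁, e₁⟩ := (h.hol x hx _).1 (pull _ (h₀.hol_u hrx))
  obtain ⟨h₂, a₂, e₂⟩ := (h.hol x hx _).1 (pull _ (h₀.hol_v hrx))
  set b₀ := S.π x with hb₀
  have ht₀ : t₀ b₀ = 0 := by
    have := h₀.eqn _ hrx
    rw [hu₀, zero_mul, hπ] at this
    exact this.symm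
  set γ : ℂ → Amb m := fun z => (b₀, z, t b₀ / z) with hγd
  have hγ0 : γ (u x) = Emap S.π u v x := by
    simp only [hγd, Emap, ← hb₀]
    rw [← h.eqn x hx, mul_div_cancel_left₀ _ hu]
  have hγa : AnalyticAt ℂ γ (u x) :=
    analyticAt_const.prod (analyticAt_id.prod (analyticAt_const.div analyticAt_id hu))
  have hγM : ∀ᶠ z in 𝓝 (u x), γ z ∈ Mset t := by
    filter_upwards [isOpen_ne.mem_nhds hu] with z hz
    change z * (t b₀ / z) = t b₀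
    exact mul_div_cancel₀ _ hz
  have hU₀ : ∀ᶠ y in 𝓝 x, r y ∈ U₀ := hc.eventually (h₀.isOpen.mem_nhds hrx)
  have hk := lift_curve h hx (hU₀.and (e₁.and e₂)) hγa.continuousAt hγ0 hγM
  have hprod : ∀ᶠ z in 𝓝 (u x), h₁ (γ z) * h₂ (γ z) = 0 := by
    filter_upwards [hk] with z ⟨y, ⟨h3, h4, h5⟩, h6⟩
    have h7 := h₀.eqn _ h3
    have hy : S.π y = b₀ := congrArg Prod.fst h6
    rw [hπ, hy, ht₀] at h7
    simp only [Function.comp_apply] at h4 h5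
    rw [← h6, ← h4, ← h5]
    exact h7
  have hback : ∀ᶠ y in 𝓝 x, S.π y = b₀ → Emap S.π u v y = γ (u y) := by
    filter_upwards [h.isOpen.mem_nhds hx, (h.cont_u hx) (isOpen_ne.mem_nhds hu)] with y hy hy0 hyb
    simp only [hγd, Emap, hyb]
    have := h.eqn y hy
    rw [hyb] at this
    rw [← this, mul_div_cancel_left₀ _ hy0]
  have hrb : X₀.π (r x) = b₀ := hπ x
  rcases eventually_zero_or (AnalyticAt.comp' (by rw [hγ0]; exact a₁) hγa)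
    (AnalyticAt.comp' (by rw [hγ0]; exact a₂) hγa) hprod with hz | hz
  · refine node_not_zero h₀ hrx hu₀ hv₀ (hopen (Filter.mem_map.2 ?_))
    filter_upwards [hback, e₁, (h.cont_u hx).eventually hz] with y h2 h3 h4 h5
    have h5 : S.π y = b₀ := by rw [← hπ, h5, hrb]
    simp only [Function.comp_apply] at h3
    rw [h3, h2 h5]
    exact h4
  · refine node_not_zero h₀.swap hrx hv₀ hu₀ (hopen (Filter.mem_map.2 ?_))
    filter_upwards [hback, e₂, (h.cont_u hx).eventually hz] with y h2 h3 h4 h5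
    have h5 : S.π y = b₀ := by rw [← hπ, h5, hrb]
    simp only [Function.comp_apply] at h3
    rw [h3, h2 h5]
    exact h4

/-- A node does not go to a smooth point. -/
theorem case_B1 {U : Set S.X} {u v : S.X → ℂ} {t : (Fin m → ℂ) → ℂ}
    (h : IsModel S.π S.hol U u v t) (hx : x ∈ U) (hu : u x = 0) (hv : v x = 0)
    {U₀ : Set X₀.X} {u₀ v₀ : X₀.X → ℂ} {t₀ : (Fin m → ℂ) → ℂ}
    (h₀ : IsModel X₀.π X₀.hol U₀ u₀ v₀ t₀) (hrx : r x ∈ U₀) (hu₀ : u₀ (r x) ≠ 0)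
    (hπ : ∀ y, X₀.π (r y) = S.π y) (hc : ContinuousAt r x)
    {U₁ : Set S.X} (hU₁ : U₁ ∈ 𝓝 x) (hinj : InjOn r U₁)
    (pull : ∀ g, X₀.hol (r x) g → S.hol x (g ∘ r)) : False := by
  obtain ⟨h₁, a₁, e₁⟩ := (h.hol x hx _).1 (pull _ (h₀.hol_u hrx))
  set b₀ := S.π x with hb₀
  have ht : t b₀ = 0 := by rw [hb₀, ← h.eqn x hx, hu, zero_mul]
  have hE : Emap S.π u v x = (b₀, 0, 0) := by simp [Emap, hu, hv, hb₀]
  -- the value of `u₀` determines the point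
  have hN : ∀ᶠ y in 𝓝 x, r y ∈ U₀ ∧ u₀ (r y) ≠ 0 :=
    (hc.eventually (h₀.isOpen.mem_nhds hrx)).and
      (((h₀.cont_u hrx).comp hc) (isOpen_ne.mem_nhds hu₀))
  have hdet : ∀ y y', (r y ∈ U₀ ∧ u₀ (r y) ≠ 0) → (r y' ∈ U₀ ∧ u₀ (r y') ≠ 0) →
      S.π y = S.π y' → u₀ (r y) = u₀ (r y') → r y = r y' := by
    intro y y' hy hy' hyy e
    refine h₀.inj hy.1 hy'.1 ?_
    have q1 := h₀.eqn _ hy.1
    have q2 := h₀.eqn _ hy'.1
    rw [hπ] at q1 q2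
    rw [← hyy, ← e] at q2
    have q3 : v₀ (r y) = v₀ (r y') := mul_left_cancel₀ hy.2 (q1.trans q2.symm)
    simp only [Emap, hπ, hyy, e, q3]
  set γ₁ : ℂ → Amb m := fun z => (b₀, z, 0) with hγ₁
  set γ₂ : ℂ → Amb m := fun z => (b₀, 0, z) with hγ₂
  have c1 : AnalyticAt ℂ γ₁ 0 := analyticAt_const.prod (analyticAt_id.prod analyticAt_const)
  have c2 : AnalyticAt ℂ γ₂ 0 := analyticAt_const.prod (analyticAt_const.prod analyticAt_id)
  have m1 : ∀ᶠ z in 𝓝 (0 : ℂ), γ₁ z ∈ Mset t := Eventually.of_forall fun z => by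
    change z * 0 = t b₀
    rw [ht, mul_zero]
  have m2 : ∀ᶠ z in 𝓝 (0 : ℂ), γ₂ z ∈ Mset t := Eventually.of_forall fun z => by
    change 0 * z = t b₀
    rw [ht, zero_mul]
  have hQ := ((Filter.eventually_mem_set.2 hU₁).and (hN.and e₁))
  have l1 := lift_curve h hx hQ c1.continuousAt hE.symm m1
  have l2 := lift_curve h hx hQ c2.continuousAt hE.symm m2
  have key : ∀ y y' z z' : _, (y ∈ U₁ ∧ (r y ∈ U₀ ∧ u₀ (r y) ≠ 0) ∧
      (u₀ ∘ r) y = (h₁ ∘ Emap S.π u v) y) → (y' ∈ U₁ ∧ (r y' ∈ U₀ ∧ u₀ (r y') ≠ 0) ∧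
      (u₀ ∘ r) y' = (h₁ ∘ Emap S.π u v) y') → Emap S.π u v y = z → Emap S.π u v y' = z' →
      z.1 = b₀ → z'.1 = b₀ → h₁ z = h₁ z' → z = z' := by
    rintro y y' z z' ⟨q1, q2, q3⟩ ⟨q1', q2', q3'⟩ rfl rfl q4 q4' q5
    have q6 : u₀ (r y) = u₀ (r y') := q3.trans (q5.trans q3'.symm)
    have q7 : S.π y = S.π y' := Eq.trans q4 q4'.symm
    rw [hinj q1 q1' (hdet y y' q2 q2' q7 q6)]
  have k1 : AnalyticAt ℂ (fun z => h₁ (γ₁ z)) 0 := AnalyticAt.comp' (by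
    change AnalyticAt ℂ h₁ (b₀, 0, 0); rw [← hE]; exact a₁) c1
  have k2 : AnalyticAt ℂ (fun z => h₁ (γ₂ z)) 0 := AnalyticAt.comp' (by
    change AnalyticAt ℂ h₁ (b₀, 0, 0); rw [← hE]; exact a₁) c2
  have i1 : deriv (fun z => h₁ (γ₁ z)) 0 ≠ 0 := by
    refine deriv_ne_zero_of_injOn k1 l1 ?_
    rintro z ⟨y, hy, hyE⟩ z' ⟨y', hy', hyE'⟩ e
    have := key y y' _ _ hy hy' hyE hyE' rfl rfl e
    exact congrArg (fun p : Amb m => p.2.1) this
  have hmap : map (fun z => h₁ (γ₁ z)) (𝓝 0) = 𝓝 (h₁ (b₀, 0, 0)) :=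
    k1.hasStrictDerivAt.map_nhds_eq i1
  have him := image_mem_map (m := fun z => h₁ (γ₁ z)) l1
  rw [hmap] at him
  have h3 : ∀ᶠ z in 𝓝 (0 : ℂ), h₁ (γ₂ z) ∈ (fun z => h₁ (γ₁ z)) ''
      {z | ∃ y, (y ∈ U₁ ∧ (r y ∈ U₀ ∧ u₀ (r y) ≠ 0) ∧ (u₀ ∘ r) y = (h₁ ∘ Emap S.π u v) y) ∧
        Emap S.π u v y = γ₁ z} := k2.continuousAt.eventually him
  obtain ⟨z, ⟨⟨y', hy', hyE'⟩, ⟨z', ⟨y, hy, hyE⟩, e⟩⟩, hz⟩ :=
    (((l2.and h3).filter_mono nhdsWithin_le_nhds).and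
      (self_mem_nhdsWithin (a := (0 : ℂ)) (s := {0}ᶜ))).exists
  have := key y y' _ _ hy hy' hyE hyE' rfl rfl e
  exact hz (congrArg (fun p : Amb m => p.2.2) this).symm

/-- Smooth point to smooth point. -/
theorem case_A1 {U : Set S.X} {u v : S.X → ℂ} {t : (Fin m → ℂ) → ℂ}
    (h : IsModel S.π S.hol U u v t) (hx : x ∈ U) (hu : u x ≠ 0)
    {U₀ : Set X₀.X} {u₀ v₀ : X₀.X → ℂ} {t₀ : (Fin m → ℂ) → ℂ}
    (h₀ : IsModel X₀.π X₀.hol U₀ u₀ v₀ t₀) (hrx : r x ∈ U₀) (hu₀ : u₀ (r x) ≠ 0)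
    (hπ : ∀ y, X₀.π (r y) = S.π y) (hc : ContinuousAt r x)
    {U₁ : Set S.X} (hU₁ : U₁ ∈ 𝓝 x) (hinj : InjOn r U₁)
    (pull : ∀ g, X₀.hol (r x) g → S.hol x (g ∘ r)) {f : S.X → ℂ} (hf : S.hol x f) :
    ∃ g, X₀.hol (r x) g ∧ f =ᶠ[𝓝 x] g ∘ r := by
  obtain ⟨k₁, a₁, e₁⟩ := (h.hol x hx _).1 (pull _ (h₀.hol_u hrx))
  set b₀ := S.π x with hb₀
  have hp₀ : Emap S.π u v x = (b₀, u x, v x) := rfl
  have hev : t b₀ / u x = v x := by rw [hb₀, ← h.eqn x hx, mul_div_cancel_left₀ _ hu]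
  have an_t : AnalyticAt ℂ t b₀ := h.an x hx
  have an_t₀ : AnalyticAt ℂ t₀ b₀ := by
    have := h₀.an _ hrx
    rwa [hπ] at this
  -- `k(b, u) = k₁(b, u, t(b) / u)`
  set k : Amb m → ℂ := fun p => k₁ (p.1, p.2.1, t p.1 / p.2.1) with hk
  have an_in : AnalyticAt ℂ (fun p : Amb m => ((p.1, p.2.1, t p.1 / p.2.1) : Amb m))
      (b₀, u x, v x) := by
    have q1 : AnalyticAt ℂ (fun p : Amb m => t p.1) (b₀, u x, v x) :=
      AnalyticAt.comp (f := Prod.fst) (g := t) (x := ((b₀, u x, v x) : Amb m)) an_t analyticAt_fst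
    exact (H948.an_b _).prod ((H948.an_u _).prod (q1.div (H948.an_u _) hu))
  have ak : AnalyticAt ℂ k (b₀, u x, v x) := by
    refine AnalyticAt.comp' (f := fun p : Amb m => ((p.1, p.2.1, t p.1 / p.2.1) : Amb m)) ?_ an_in
    simp only [hev]
    exact a₁
  have kval : k (b₀, u x, v x) = u₀ (r x) := by
    have := e₁.self_of_nhds
    simp only [Function.comp_apply] at this
    rw [this, hk]
    simp only [hev]
    rfl
  have e₁' : ∀ᶠ y in 𝓝 x, u₀ (r y) = k (Emap S.π u v y) := by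
    filter_upwards [e₁, h.isOpen.mem_nhds hx, (h.cont_u hx) (isOpen_ne.mem_nhds hu)]
      with y h1 h2 h3
    simp only [Function.comp_apply] at h1
    rw [h1, hk]
    simp only [Emap]
    rw [← h.eqn y h2, mul_div_cancel_left₀ _ h3]
  set l : Amb m → ℂ := fun p => t₀ p.1 / k p + (p.2.1 * p.2.2 - t p.1) with hl
  have hk0 : k (b₀, u x, v x) ≠ 0 := by rw [kval]; exact hu₀
  have al : AnalyticAt ℂ l (b₀, u x, v x) := by
    have q1 : AnalyticAt ℂ (fun p : Amb m => t p.1) (b₀, u x, v x) :=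
      AnalyticAt.comp (f := Prod.fst) (g := t) (x := ((b₀, u x, v x) : Amb m)) an_t analyticAt_fst
    have q2 : AnalyticAt ℂ (fun p : Amb m => t₀ p.1) (b₀, u x, v x) :=
      AnalyticAt.comp (f := Prod.fst) (g := t₀) (x := ((b₀, u x, v x) : Amb m)) an_t₀
        analyticAt_fst
    exact (q2.div ak hk0).add (((H948.an_u _).mul (H948.an_v _)).sub q1)
  have hN : ∀ᶠ y in 𝓝 x, r y ∈ U₀ ∧ u₀ (r y) ≠ 0 :=
    (hc.eventually (h₀.isOpen.mem_nhds hrx)).and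
      (((h₀.cont_u hrx).comp hc) (isOpen_ne.mem_nhds hu₀))
  have e₂' : ∀ᶠ y in 𝓝 x, v₀ (r y) = l (Emap S.π u v y) := by
    filter_upwards [e₁', h.isOpen.mem_nhds hx, hN] with y h1 h2 h3
    have q1 := h₀.eqn _ h3.1
    rw [hπ] at q1
    have q2 : u y * v y - t (S.π y) = 0 := by rw [h.eqn y h2, sub_self]
    change v₀ (r y) = t₀ (S.π y) / k (Emap S.π u v y) + (u y * v y - t (S.π y))
    rw [← h1, q2, add_zero, ← q1, mul_div_cancel_left₀ _ h3.2]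
  -- injectivity in `u`
  set γ : ℂ → Amb m := fun z => (b₀, z, t b₀ / z) with hγd
  have hγ0 : γ (u x) = Emap S.π u v x := by
    rw [hp₀, hγd]
    simp only [hev]
  have hγa : AnalyticAt ℂ γ (u x) :=
    analyticAt_const.prod (analyticAt_id.prod (analyticAt_const.div analyticAt_id hu))
  have hγM : ∀ᶠ z in 𝓝 (u x), γ z ∈ Mset t := by
    filter_upwards [isOpen_ne.mem_nhds hu] with z hz
    change z * (t b₀ / z) = t b₀
    exact mul_div_cancel₀ _ hz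
  obtain ⟨V, hV, hVi⟩ := inj_curve h hx h₀ hrx hπ hc hU₁ hinj e₁' hγa.continuousAt hγ0 hγM
    (fun z z' e => congrArg (fun p : Amb m => p.2.1) e) (fun z => rfl)
    ⟨_, hN, fun y hy y' hy' hR hR' e => by
      obtain ⟨z, hz⟩ := hR
      obtain ⟨z', hz'⟩ := hR'
      have p1 : S.π y = b₀ := (congrArg Prod.fst hz).symm
      have p2 : S.π y' = b₀ := (congrArg Prod.fst hz').symm
      have q1 := h₀.eqn _ hy.1
      have q2 := h₀.eqn _ hy'.1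
      rw [hπ, p1] at q1
      rw [hπ, p2, ← e] at q2
      exact mul_left_cancel₀ hy.2 (q1.trans q2.symm)⟩
  have kconst : ∀ z w w', k (b₀, z, w) = k (b₀, z, w') := fun z w w' => rfl
  have d1 : deriv (fun z => k (b₀, z, v x)) (u x) ≠ 0 := by
    have q1 : AnalyticAt ℂ (fun z => k (b₀, z, v x)) (u x) :=
      AnalyticAt.comp' (f := fun z : ℂ => ((b₀, z, v x) : Amb m)) ak
        (analyticAt_const.prod (analyticAt_id.prod analyticAt_const))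
    exact deriv_ne_zero_of_injOn q1 hV hVi
  have d2 : deriv (fun z => k (b₀, u x, z)) (v x) = 0 := by
    have : (fun z => k (b₀, u x, z)) = fun _ => k (b₀, u x, v x) := funext fun z => rfl
    rw [this, deriv_const]
  have d3 : deriv (fun z => l (b₀, u x, z)) (v x) ≠ 0 := by
    have q1 : (fun z => l (b₀, u x, z)) =
        fun z => t₀ b₀ / k (b₀, u x, v x) + (u x * z - t b₀) := funext fun z => rfl
    have q2 : HasDerivAt (fun z => t₀ b₀ / k (b₀, u x, v x) + (u x * z - t b₀)) (u x) (v x) := by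
      have := (((hasDerivAt_id (v x)).const_mul (u x)).sub_const (t b₀)).const_add
        (t₀ b₀ / k (b₀, u x, v x))
      simpa using this
    rw [q1, q2.deriv]
    exact hu
  obtain ⟨D, hD⟩ := amb_inv ak al d1 d2 d3
  exact push_of_amb h hx h₀ hrx hπ ak al e₁' e₂' hD hf

theorem case_B2' {U : Set S.X} {u v : S.X → ℂ} {t : (Fin m → ℂ) → ℂ}
    (h : IsModel S.π S.hol U u v t) (hx : x ∈ U) (hu : u x = 0) (hv : v x = 0)
    {U₀ : Set X₀.X} {u₀ v₀ : X₀.X → ℂ} {t₀ : (Fin m → ℂ) → ℂ}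
    (h₀ : IsModel X₀.π X₀.hol U₀ u₀ v₀ t₀) (hrx : r x ∈ U₀) (hu₀ : u₀ (r x) = 0)
    (hv₀ : v₀ (r x) = 0) (hπ : ∀ y, X₀.π (r y) = S.π y) (hc : ContinuousAt r x)
    {U₁ : Set S.X} (hU₁ : U₁ ∈ 𝓝 x) (hinj : InjOn r U₁) (hopen : 𝓝 (r x) ≤ map r (𝓝 x))
    (pull : ∀ g, X₀.hol (r x) g → S.hol x (g ∘ r))
    (hz : ∀ᶠ y in 𝓝 x, S.π y = S.π x → v y = 0 → v₀ (r y) = 0)
    {f : S.X → ℂ} (hf : S.hol x f) : ∃ g, X₀.hol (r x) g ∧ f =ᶠ[𝓝 x] g ∘ r := by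
  obtain ⟨h₁, a₁, e₁⟩ := (h.hol x hx _).1 (pull _ (h₀.hol_u hrx))
  obtain ⟨h₂, a₂, e₂⟩ := (h.hol x hx _).1 (pull _ (h₀.hol_v hrx))
  have e₁ : ∀ᶠ y in 𝓝 x, u₀ (r y) = h₁ (Emap S.π u v y) := e₁
  have e₂ : ∀ᶠ y in 𝓝 x, v₀ (r y) = h₂ (Emap S.π u v y) := e₂
  set b₀ := S.π x with hb₀
  have hE : Emap S.π u v x = (b₀, 0, 0) := by simp [Emap, hu, hv, hb₀]
  have ht : t b₀ = 0 := by rw [hb₀, ← h.eqn x hx, hu, zero_mul]
  have ht₀ : t₀ b₀ = 0 := by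
    have := h₀.eqn _ hrx
    rw [hu₀, zero_mul, hπ] at this
    exact this.symm
  set γ₁ : ℂ → Amb m := fun z => (b₀, z, 0) with hγ₁
  set γ₂ : ℂ → Amb m := fun z => (b₀, 0, z) with hγ₂
  have c1 : AnalyticAt ℂ γ₁ 0 := analyticAt_const.prod (analyticAt_id.prod analyticAt_const)
  have c2 : AnalyticAt ℂ γ₂ 0 := analyticAt_const.prod (analyticAt_const.prod analyticAt_id)
  have m1 : ∀ᶠ z in 𝓝 (0 : ℂ), γ₁ z ∈ Mset t := Eventually.of_forall fun z => by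
    change z * 0 = t b₀
    rw [ht, mul_zero]
  have m2 : ∀ᶠ z in 𝓝 (0 : ℂ), γ₂ z ∈ Mset t := Eventually.of_forall fun z => by
    change 0 * z = t b₀
    rw [ht, zero_mul]
  have hU₀ : ∀ᶠ y in 𝓝 x, r y ∈ U₀ := hc.eventually (h₀.isOpen.mem_nhds hrx)
  have z1 : ∀ᶠ z in 𝓝 (0 : ℂ), h₂ (γ₁ z) = 0 := by
    filter_upwards [lift_curve h hx (hz.and e₂) c1.continuousAt hE.symm m1]
      with z ⟨y, ⟨q1, q2⟩, q3⟩
    rw [← q3, ← q2]
    exact q1 (congrArg Prod.fst q3) (congrArg (fun p : Amb m => p.2.2) q3)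
  have p2 : ∀ᶠ z in 𝓝 (0 : ℂ), h₁ (γ₂ z) * h₂ (γ₂ z) = 0 := by
    filter_upwards [lift_curve h hx (hU₀.and (e₁.and e₂)) c2.continuousAt hE.symm m2]
      with z ⟨y, ⟨q1, q2, q3⟩, q4⟩
    rw [← q4, ← q2, ← q3, h₀.eqn _ q1, hπ, show S.π y = b₀ from congrArg Prod.fst q4, ht₀]
  have ac1 : AnalyticAt ℂ (fun z => h₁ (γ₂ z)) 0 := AnalyticAt.comp' (by
    change AnalyticAt ℂ h₁ (b₀, 0, 0); rw [← hE]; exact a₁) c2
  have ac2 : AnalyticAt ℂ (fun z => h₂ (γ₂ z)) 0 := AnalyticAt.comp' (by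
    change AnalyticAt ℂ h₂ (b₀, 0, 0); rw [← hE]; exact a₂) c2
  have ac3 : AnalyticAt ℂ (fun z => h₁ (γ₁ z)) 0 := AnalyticAt.comp' (by
    change AnalyticAt ℂ h₁ (b₀, 0, 0); rw [← hE]; exact a₁) c1
  have cu0 : ∀ᶠ y in 𝓝 x, h₂ (γ₁ (u y)) = 0 := by
    have := h.cont_u hx
    rw [ContinuousAt, hu] at this
    exact this.eventually z1
  have z2 : ∀ᶠ z in 𝓝 (0 : ℂ), h₁ (γ₂ z) = 0 := by
    rcases eventually_zero_or ac1 ac2 p2 with q | q
    · exact q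
    · exfalso
      have cv0 : ∀ᶠ y in 𝓝 x, h₂ (γ₂ (v y)) = 0 := by
        have := h.cont_v hx
        rw [ContinuousAt, hv] at this
        exact this.eventually q
      refine node_not_zero h₀.swap hrx hv₀ hu₀ (hopen (Filter.mem_map.2 ?_))
      filter_upwards [cu0, cv0, e₂, h.isOpen.mem_nhds hx] with y q1 q2 q3 q4 q5
      have q5 : S.π y = b₀ := by
        have := q5
        rw [hπ, hπ] at this
        exact this
      have q6 := h.eqn y q4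
      rw [q5, ht] at q6
      rw [q3]
      rcases mul_eq_zero.1 q6 with q7 | q7
      · have : Emap S.π u v y = γ₂ (v y) := by simp only [Emap, q5, q7, hγ₂]
        rw [this]; exact q2
      · have : Emap S.π u v y = γ₁ (u y) := by simp only [Emap, q5, q7, hγ₁]
        rw [this]; exact q1
  have cv0 : ∀ᶠ y in 𝓝 x, h₁ (γ₂ (v y)) = 0 := by
    have := h.cont_v hx
    rw [ContinuousAt, hv] at this
    exact this.eventually z2
  obtain ⟨V₁, hV₁, i1⟩ := inj_curve h hx h₀ hrx hπ hc hU₁ hinj e₁ c1.continuousAt hE.symm m1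
    (fun z z' e => congrArg (fun p : Amb m => p.2.1) e) (fun z => rfl)
    ⟨_, e₂.and cu0, fun y hy y' hy' hR hR' _ => by
      obtain ⟨z, q⟩ := hR
      obtain ⟨z', q'⟩ := hR'
      have w1 : Emap S.π u v y = γ₁ (u y) := by
        rw [← q]
        exact congrArg γ₁ (congrArg (fun p : Amb m => p.2.1) q)
      have w2 : Emap S.π u v y' = γ₁ (u y') := by
        rw [← q']
        exact congrArg γ₁ (congrArg (fun p : Amb m => p.2.1) q')
      have r1 : v₀ (r y) = 0 := by rw [hy.1, w1]; exact hy.2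
      have r2 : v₀ (r y') = 0 := by rw [hy'.1, w2]; exact hy'.2
      rw [r1, r2]⟩
  obtain ⟨V₂, hV₂, i2⟩ := inj_curve h hx h₀.swap hrx hπ hc hU₁ hinj e₂ c2.continuousAt hE.symm m2
    (fun z z' e => congrArg (fun p : Amb m => p.2.2) e) (fun z => rfl)
    ⟨_, e₁.and cv0, fun y hy y' hy' hR hR' _ => by
      obtain ⟨z, q⟩ := hR
      obtain ⟨z', q'⟩ := hR'
      have w1 : Emap S.π u v y = γ₂ (v y) := by
        rw [← q]
        exact congrArg γ₂ (congrArg (fun p : Amb m => p.2.2) q)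
      have w2 : Emap S.π u v y' = γ₂ (v y') := by
        rw [← q']
        exact congrArg γ₂ (congrArg (fun p : Amb m => p.2.2) q')
      have r1 : u₀ (r y) = 0 := by rw [hy.1, w1]; exact hy.2
      have r2 : u₀ (r y') = 0 := by rw [hy'.1, w2]; exact hy'.2
      rw [r1, r2]⟩
  have d1 : deriv (fun z => h₁ (b₀, z, 0)) 0 ≠ 0 := deriv_ne_zero_of_injOn ac3 hV₁ i1
  have d2 : deriv (fun z => h₁ (b₀, 0, z)) 0 = 0 := by
    have : (fun z => h₁ (b₀, 0, z)) =ᶠ[𝓝 0] fun _ => (0 : ℂ) := z2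
    rw [this.deriv_eq, deriv_const]
  have d3 : deriv (fun z => h₂ (b₀, 0, z)) 0 ≠ 0 := deriv_ne_zero_of_injOn ac2 hV₂ i2
  obtain ⟨D, hD⟩ := amb_inv (by rw [← hE]; exact a₁) (by rw [← hE]; exact a₂) d1 d2 d3
  rw [← hE] at hD
  exact push_of_amb h hx h₀ hrx hπ a₁ a₂ e₁ e₂ hD hf

/-- Node to node. -/
theorem case_B2 {U : Set S.X} {u v : S.X → ℂ} {t : (Fin m → ℂ) → ℂ}
    (h : IsModel S.π S.hol U u v t) (hx : x ∈ U) (hu : u x = 0) (hv : v x = 0)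
    {U₀ : Set X₀.X} {u₀ v₀ : X₀.X → ℂ} {t₀ : (Fin m → ℂ) → ℂ}
    (h₀ : IsModel X₀.π X₀.hol U₀ u₀ v₀ t₀) (hrx : r x ∈ U₀) (hu₀ : u₀ (r x) = 0)
    (hv₀ : v₀ (r x) = 0) (hπ : ∀ y, X₀.π (r y) = S.π y) (hc : ContinuousAt r x)
    {U₁ : Set S.X} (hU₁ : U₁ ∈ 𝓝 x) (hinj : InjOn r U₁) (hopen : 𝓝 (r x) ≤ map r (𝓝 x))
    (pull : ∀ g, X₀.hol (r x) g → S.hol x (g ∘ r))
    {f : S.X → ℂ} (hf : S.hol x f) : ∃ g, X₀.hol (r x) g ∧ f =ᶠ[𝓝 x] g ∘ r := by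
  obtain ⟨h₁, a₁, e₁⟩ := (h.hol x hx _).1 (pull _ (h₀.hol_u hrx))
  obtain ⟨h₂, a₂, e₂⟩ := (h.hol x hx _).1 (pull _ (h₀.hol_v hrx))
  have e₁ : ∀ᶠ y in 𝓝 x, u₀ (r y) = h₁ (Emap S.π u v y) := e₁
  have e₂ : ∀ᶠ y in 𝓝 x, v₀ (r y) = h₂ (Emap S.π u v y) := e₂
  set b₀ := S.π x with hb₀
  have hE : Emap S.π u v x = (b₀, 0, 0) := by simp [Emap, hu, hv, hb₀]
  have ht : t b₀ = 0 := by rw [hb₀, ← h.eqn x hx, hu, zero_mul]
  have ht₀ : t₀ b₀ = 0 := by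
    have := h₀.eqn _ hrx
    rw [hu₀, zero_mul, hπ] at this
    exact this.symm
  set γ₁ : ℂ → Amb m := fun z => (b₀, z, 0) with hγ₁
  have c1 : AnalyticAt ℂ γ₁ 0 := analyticAt_const.prod (analyticAt_id.prod analyticAt_const)
  have m1 : ∀ᶠ z in 𝓝 (0 : ℂ), γ₁ z ∈ Mset t := Eventually.of_forall fun z => by
    change z * 0 = t b₀
    rw [ht, mul_zero]
  have hU₀ : ∀ᶠ y in 𝓝 x, r y ∈ U₀ := hc.eventually (h₀.isOpen.mem_nhds hrx)
  have p1 : ∀ᶠ z in 𝓝 (0 : ℂ), h₁ (γ₁ z) * h₂ (γ₁ z) = 0 := by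
    filter_upwards [lift_curve h hx (hU₀.and (e₁.and e₂)) c1.continuousAt hE.symm m1]
      with z ⟨y, ⟨q1, q2, q3⟩, q4⟩
    rw [← q4, ← q2, ← q3, h₀.eqn _ q1, hπ, show S.π y = b₀ from congrArg Prod.fst q4, ht₀]
  have ac1 : AnalyticAt ℂ (fun z => h₁ (γ₁ z)) 0 := AnalyticAt.comp' (by
    change AnalyticAt ℂ h₁ (b₀, 0, 0); rw [← hE]; exact a₁) c1
  have ac2 : AnalyticAt ℂ (fun z => h₂ (γ₁ z)) 0 := AnalyticAt.comp' (by
    change AnalyticAt ℂ h₂ (b₀, 0, 0); rw [← hE]; exact a₂) c1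
  rcases eventually_zero_or ac1 ac2 p1 with q | q
  · have cu0 : ∀ᶠ y in 𝓝 x, h₁ (γ₁ (u y)) = 0 := by
      have := h.cont_u hx
      rw [ContinuousAt, hu] at this
      exact this.eventually q
    refine case_B2' h hx hu hv h₀.swap hrx hv₀ hu₀ hπ hc hU₁ hinj hopen pull ?_ hf
    filter_upwards [cu0, e₁] with y q1 q2 q3 q4
    have : Emap S.π u v y = γ₁ (u y) := by simp only [Emap, q3, q4, hγ₁, hb₀]
    rw [q2, this]; exact q1
  · have cu0 : ∀ᶠ y in 𝓝 x, h₂ (γ₁ (u y)) = 0 := by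
      have := h.cont_u hx
      rw [ContinuousAt, hu] at this
      exact this.eventually q
    refine case_B2' h hx hu hv h₀ hrx hu₀ hv₀ hπ hc hU₁ hinj hopen pull ?_ hf
    filter_upwards [cu0, e₂] with y q1 q2 q3 q4
    have : Emap S.π u v y = γ₁ (u y) := by simp only [Emap, q3, q4, hγ₁, hb₀]
    rw [q2, this]; exact q1

/-- **A continuous fibre-preserving map of nodal surfaces that pulls back holomorphic functions and
is a local homeomorphism at `x` is a local isomorphism at `x`.** -/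
theorem push_surf (hπ : ∀ y, X₀.π (r y) = S.π y) (hc : ContinuousAt r x)
    {U₁ : Set S.X} (hU₁ : U₁ ∈ 𝓝 x) (hinj : InjOn r U₁) (hopen : 𝓝 (r x) ≤ map r (𝓝 x))
    (pull : ∀ g, X₀.hol (r x) g → S.hol x (g ∘ r))
    {f : S.X → ℂ} (hf : S.hol x f) : ∃ g, X₀.hol (r x) g ∧ f =ᶠ[𝓝 x] g ∘ r := by
  obtain ⟨U, u, v, t, hx, h⟩ := S.model x
  obtain ⟨U₀, u₀, v₀, t₀, hrx, h₀⟩ := X₀.model (r x)
  by_cases hu : u x = 0
  · by_cases hv : v x = 0
    · by_cases hu₀ : u₀ (r x) = 0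
      · by_cases hv₀ : v₀ (r x) = 0
        · exact case_B2 h hx hu hv h₀ hrx hu₀ hv₀ hπ hc hU₁ hinj hopen pull hf
        · exact (case_B1 h hx hu hv h₀.swap hrx hv₀ hπ hc hU₁ hinj pull).elim
      · exact (case_B1 h hx hu hv h₀ hrx hu₀ hπ hc hU₁ hinj pull).elim
    · by_cases hu₀ : u₀ (r x) = 0
      · by_cases hv₀ : v₀ (r x) = 0
        · exact (case_A2 h.swap hx hv h₀ hrx hu₀ hv₀ hπ hc hopen pull).elim
        · exact case_A1 h.swap hx hv h₀.swap hrx hv₀ hπ hc hU₁ hinj pull hf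
      · exact case_A1 h.swap hx hv h₀ hrx hu₀ hπ hc hU₁ hinj pull hf
  · by_cases hu₀ : u₀ (r x) = 0
    · by_cases hv₀ : v₀ (r x) = 0
      · exact (case_A2 h hx hu h₀ hrx hu₀ hv₀ hπ hc hopen pull).elim
      · exact case_A1 h hx hu h₀.swap hrx hv₀ hπ hc hU₁ hinj pull hf
    · exact case_A1 h hx hu h₀ hrx hu₀ hπ hc hU₁ hinj pull hf

end main



section inverse

variable {C : Fam L m} {X₀ : Surf m} {P : L → (Fin m → ℂ) → X₀.X} {r : C.X → X₀.X}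

open Classical in
/-- The inverse of the contraction over the part `D` of the base. -/
def rinv (C : Fam L m) (X₀ : Surf m) (r : C.X → X₀.X) (c₀ : C.X) (y : X₀.X) : C.X :=
  if h : ∃ x, r x = y then h.choose else c₀

theorem r_rinv {c₀ : C.X} {y : X₀.X} (h : ∃ x, r x = y) : r (rinv C X₀ r c₀ y) = y := by
  have : rinv C X₀ r c₀ y = h.choose := dif_pos h
  rw [this]
  exact h.choose_spec

theorem Ctr.rinv_r (hr : Ctr C X₀ P r) {c₀ : C.X} {x : C.X} (hb : C.π x ∈ C.B)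
    (hg : Good X₀ P (C.π x)) : rinv C X₀ r c₀ (r x) = x := by
  have h1 : r (rinv C X₀ r c₀ (r x)) = r x := r_rinv ⟨x, rfl⟩
  refine (hr.bij _ hb hg).injOn ?_ rfl h1
  change C.π _ = C.π x
  rw [← hr.π_r, h1, hr.π_r]

theorem Ctr.exists_r (hr : Ctr C X₀ P r) {y : X₀.X} (hb : X₀.π y ∈ C.B)
    (hg : Good X₀ P (X₀.π y)) : ∃ x, r x = y := by
  obtain ⟨x, -, hx⟩ := (hr.bij _ hb hg).surjOn (a := y) rfl
  exact ⟨x, hx⟩

/-- The inverse of the contraction is continuous over good points. -/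
theorem Ctr.cont_rinv (hr : Ctr C X₀ P r) (hC : C.IsStable) {D : Set (Fin m → ℂ)} (hD : IsOpen D)
    (hDB : D ⊆ C.B) (hDg : ∀ b ∈ D, Good X₀ P b) (c₀ : C.X) {y : X₀.X} (hy : X₀.π y ∈ D) :
    ContinuousAt (rinv C X₀ r c₀) y := by
  have := hC.2.1
  obtain ⟨K, hK, hKD, hKc⟩ := local_compact_nhds (hD.mem_nhds hy)
  have h1 : IsCompact (C.π ⁻¹' K) := hC.2.2.2.1 K (hKD.trans hDB) hKc
  have h2 : ∀ᶠ z in 𝓝 y, X₀.π z ∈ K := X₀.cont_π.continuousAt hK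
  have hex : ∀ z, X₀.π z ∈ K → r (rinv C X₀ r c₀ z) = z := fun z hz =>
    r_rinv (hr.exists_r (hDB (hKD hz)) (hDg _ (hKD hz)))
  have h3 : ∀ᶠ z in 𝓝 y, rinv C X₀ r c₀ z ∈ C.π ⁻¹' K := by
    filter_upwards [h2] with z hz
    change C.π _ ∈ K
    rw [← hr.π_r, hex z hz]
    exact hz
  unfold ContinuousAt
  rw [tendsto_iff_ultrafilter]
  intro 𝒰 h𝒰
  obtain ⟨x, hx, hx'⟩ := isCompact_iff_ultrafilter_le_nhds.1 h1 (𝒰.map (rinv C X₀ r c₀)) (by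
    rw [Filter.le_principal_iff]
    exact Filter.mem_map.2 (h𝒰 h3))
  have hx' : Tendsto (rinv C X₀ r c₀) 𝒰 (𝓝 x) := hx'
  have h4 : Tendsto (fun z => r (rinv C X₀ r c₀ z)) 𝒰 (𝓝 (r x)) :=
    (hr.cont.tendsto x).comp hx'
  have h5 : Tendsto (fun z => r (rinv C X₀ r c₀ z)) 𝒰 (𝓝 y) := by
    refine Tendsto.congr' (f₁ := id) ?_ h𝒰
    have : ∀ᶠ z in 𝒰, X₀.π z ∈ K := h𝒰 h2
    filter_upwards [this] with z hz
    exact (hex z hz).symm
  have h6 : r x = y := tendsto_nhds_unique h4 h5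
  have h7 : rinv C X₀ r c₀ y = x := by
    have hb : C.π x ∈ D := by rw [← hr.π_r, h6]; exact hy
    rw [← h6]
    exact hr.rinv_r (hDB hb) (hDg _ hb)
  rw [h7]
  exact hx'

end inverse

/-- **Over good points the holomorphic functions of the family are those of the start family.** -/
theorem Ctr.push {C : Fam L m} {X₀ : Surf m} {P : L → (Fin m → ℂ) → X₀.X} {r : C.X → X₀.X}
    (hr : Ctr C X₀ P r) (hC : C.IsStable) {D : Set (Fin m → ℂ)} (hD : IsOpen D) (hDB : D ⊆ C.B)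
    (hDg : ∀ b ∈ D, Good X₀ P b) {x : C.X} (hx : C.π x ∈ D) {f : C.X → ℂ} (hf : C.hol f x) :
    ∃ g, X₀.hol (r x) g ∧ f =ᶠ[𝓝 x] g ∘ r := by
  have hπc : Continuous C.π := (toP C hC).S.cont_π
  have hrx : X₀.π (r x) ∈ D := by rw [hr.π_r]; exact hx
  have hcont := hr.cont_rinv hC hD hDB hDg x hrx
  have hopen : 𝓝 (r x) ≤ map r (𝓝 x) := by
    intro s hs
    have h1 : rinv C X₀ r x (r x) = x := hr.rinv_r (hDB hx) (hDg _ hx)
    have h2 : ∀ᶠ z in 𝓝 (r x), rinv C X₀ r x z ∈ r ⁻¹' s := by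
      have h3 := hcont
      unfold ContinuousAt at h3
      rw [h1] at h3
      exact h3 (Filter.mem_map.1 hs)
    have h4 : ∀ᶠ z in 𝓝 (r x), X₀.π z ∈ D := X₀.cont_π.continuousAt (hD.mem_nhds hrx)
    filter_upwards [h2, h4] with z hz hzD
    have h5 : r (rinv C X₀ r x z) = z := r_rinv (hr.exists_r (hDB hzD) (hDg _ hzD))
    rw [← h5]
    exact hz
  have hinj : InjOn r (C.π ⁻¹' D) := by
    intro y hy z hz e
    have hyz : C.π y = C.π z := by rw [← hr.π_r, ← hr.π_r, e]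
    exact (hr.bij _ (hDB hy) (hDg _ hy)).injOn rfl hyz.symm e
  exact push_surf (S := (toP C hC).S) (r := r) hr.π_r hr.cont.continuousAt
    (U₁ := C.π ⁻¹' D) ((hD.preimage hπc).mem_nhds hx) hinj hopen (fun g hg => hr.pull x g hg) hf

end Vale.Agent.P273.H507

end
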