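import Vale.Agent.P273.H948.State
import Vale.Agent.P273.H948.Conv

/-!
Restriction of a stable family to a smaller base; the value of a natural form does not change.
-/

noncomputable section

namespace Vale.Agent.P273.H507

open Set Filter Topology H183
open Vale.Agent.P273.H948 (Surf PFam IsModel IsSec)

variable {L : Type} {m : ℕ}

/-- The family with total space `S`, base `B` and marked points `s`. -/
abbrev famS (S : Surf m) (B : Set (Fin m → ℂ)) (s : L → (Fin m → ℂ) → S.X) : Fam L m where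
  B := B
  X := S.X
  π := S.π
  hol f p := S.hol p f
  s := s

/-- A proper family with disjoint sections through smooth points and without vector fields is
stable. -/
theorem isStable_famS {P : PFam m} {s : L → (Fin m → ℂ) → P.S.X}
    (hsec : ∀ j, IsSec P.S P.B (s j)) (hsm : ∀ j, ∀ b ∈ P.B, P.S.SmoothAt (s j b))
    (hinj : ∀ i j, ∀ b ∈ P.B, s i b = s j b → i = j)
    (hf : ∀ b ∈ P.B, ∀ D, (famS P.S P.B s).IsField b D →
      ∀ p ∈ (famS P.S P.B s).fib b, ∀ f, (famS P.S P.B s).hol f p → D f p = 0) :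
    (famS P.S P.B s).IsStable := by
  refine ⟨P.openB, P.S.t2, P.mem, P.proper, fun p => ?_, fun b hb => ⟨P.conn b hb, fun i => ?_,
    hf b hb⟩⟩
  · obtain ⟨U, u, v, t, hx, h⟩ := P.S.model p
    exact ⟨U, u, v, t, hx, h.isChart⟩
  · obtain ⟨h1, h2, h3⟩ := hsec i b hb
    refine ⟨h1, h2, h3, fun j => hinj i j b hb, fun U x y t hU hs => ?_⟩
    exact (hsm i b hb).all hs (IsChart.isModel (hol := fun p f => P.S.hol p f) hU)

/-- `T` is the restriction of the family `C` to the open set `D`, `ι` the inclusion. -/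
structure IsRestr (C : Fam L m) (D : Set (Fin m → ℂ)) (T : Fam L m) (ι : T.X → C.X) : Prop where
  B : T.B = D
  stable : T.IsStable
  emb : IsOpenEmbedding ι
  π : ∀ x, C.π (ι x) = T.π x
  hol : ∀ x g, T.hol g x ↔ ∃ g', C.hol g' (ι x) ∧ g =ᶠ[𝓝 x] g' ∘ ι
  hol_comp : ∀ x g, T.hol (g ∘ ι) x ↔ C.hol g (ι x)
  ex : ∀ x, C.π x ∈ D → ∃ y, ι y = x
  s : ∀ j, ∀ b ∈ D, ι (T.s j b) = C.s j b

section

variable {P : PFam m} {s : L → (Fin m → ℂ) → P.S.X}
  {D : Set (Fin m → ℂ)} {hD : IsOpen D} {hDB : D ⊆ P.B} {x₀ : (P.shrink D hD hDB).S.X}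

theorem fld_shrink (hsec : ∀ j, IsSec P.S P.B (s j)) {b : Fin m → ℂ} (hb : b ∈ D)
    (hf : ∀ E, (famS P.S P.B s).IsField b E →
      ∀ p ∈ (famS P.S P.B s).fib b, ∀ f, (famS P.S P.B s).hol f p → E f p = 0)
    {E : ((P.shrink D hD hDB).S.X → ℂ) → (P.shrink D hD hDB).S.X → ℂ}
    (hE : (famS (P.shrink D hD hDB).S D fun j => P.rsec x₀ (s j)).IsField b E)
    {p : (P.shrink D hD hDB).S.X} (hp : (P.shrink D hD hDB).S.π p = b)
    {f : (P.shrink D hD hDB).S.X → ℂ} (hfp : (P.shrink D hD hDB).S.hol p f) : E f p = 0 := by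
  classical
  let ι : (P.shrink D hD hDB).S.X → P.S.X := P.inc (hB' := hD) (hB := hDB)
  have hι : IsOpenEmbedding ι := PFam.inc_emb (F := P) (hB' := hD) (hB := hDB)
  have hex0 : ∀ x, P.S.π x ∈ D → ∃ y, ι y = x := fun x hx =>
    PFam.exists_inc (F := P) (hB' := hD) (hB := hDB) hx
  have hhol : ∀ x g, (P.shrink D hD hDB).S.hol x g ↔ ∃ g', P.S.hol (ι x) g' ∧ g =ᶠ[𝓝 x] g' ∘ ι :=
    PFam.inc_hol (F := P) (hB' := hD) (hB := hDB)
  have hholc : ∀ x g, (P.shrink D hD hDB).S.hol x (g ∘ ι) ↔ P.S.hol (ι x) g :=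
    PFam.inc_hol_comp (F := P) (hB' := hD) (hB := hDB)
  have hs : ∀ i, ι (P.rsec x₀ (s i) b) = s i b := fun i =>
    PFam.inc_rsec (F := P) (hB' := hD) (hB := hDB) (hsec i) hb
  let ex : ∀ x : P.S.X, P.S.π x ∈ D → (P.shrink D hD hDB).S.X := fun x hx => (hex0 x hx).choose
  have hex : ∀ x hx, ι (ex x hx) = x := fun x hx => (hex0 x hx).choose_spec
  have hex' : ∀ (y : (P.shrink D hD hDB).S.X) (hy : P.S.π (ι y) ∈ D), ex (ι y) hy = y :=
    fun y hy => hι.injective (hex _ hy)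
  let E' : (P.S.X → ℂ) → P.S.X → ℂ := fun g x =>
    if hx : P.S.π x ∈ D then E (g ∘ ι) (ex x hx) else 0
  have hE' : ∀ g (y : (P.shrink D hD hDB).S.X), E' g (ι y) = E (g ∘ ι) y := by
    intro g y
    have hy : P.S.π (ι y) ∈ D := (P.shrink D hD hDB).mem y
    simp only [E', dif_pos hy, hex']
  have hfib : ∀ x, P.S.π x = b → ∃ y, (P.shrink D hD hDB).S.π y = b ∧ ι y = x := by
    intro x hx
    obtain ⟨y, rfl⟩ := hex0 x (by rw [hx]; exact hb)
    exact ⟨y, hx, rfl⟩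
  have hmap : ∀ y : (P.shrink D hD hDB).S.X,
      map ι (𝓝[(P.shrink D hD hDB).S.π ⁻¹' {b}] y) = 𝓝[P.S.π ⁻¹' {b}] (ι y) := by
    intro y
    exact hι.map_nhdsWithin_preimage_eq (P.S.π ⁻¹' {b}) y
  obtain ⟨hE1, hE2, hE3⟩ := hE
  have key : (famS P.S P.B s).IsField b E' := by
    refine ⟨?_, ?_, ?_⟩
    · intro x hx g g' hg hg'
      obtain ⟨y, hy, rfl⟩ := hfib x hx
      obtain ⟨h1, h2, h3, k, hk, h4⟩ := hE1 y hy (g ∘ ι) (g' ∘ ι)
        ((hholc y g).2 hg) ((hholc y g').2 hg')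
      refine ⟨?_, ?_, ?_, ?_⟩
      · rw [hE', hE', hE']; exact h1
      · rw [hE', hE', hE']; exact h2
      · intro e
        rw [hE', hE']
        refine h3 ?_
        have e' : g =ᶠ[map ι (𝓝[(P.shrink D hD hDB).S.π ⁻¹' {b}] y)] g' := by
          rw [hmap]; exact e
        exact Filter.eventually_map.1 e'
      · obtain ⟨g₁, hg₁, e₁⟩ := (hhol y k).1 hk
        refine ⟨g₁, hg₁, ?_⟩
        have e' : E' g =ᶠ[map ι (𝓝[(P.shrink D hD hDB).S.π ⁻¹' {b}] y)] g₁ := by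
          refine Filter.eventually_map.2 ?_
          filter_upwards [h4, mem_nhdsWithin_of_mem_nhds e₁] with q hq hq'
          rw [hE', hq, hq']; rfl
        rw [hmap] at e'
        exact e'
    · intro x hx c
      obtain ⟨y, hy, rfl⟩ := hfib x hx
      rw [hE']
      exact hE2 y hy c
    · intro i g hg
      have hg : P.S.hol (s i b) g := hg
      change E' g (s i b) = 0
      rw [← hs i] at hg ⊢
      rw [hE']
      exact hE3 i _ ((hholc _ g).2 hg)
  obtain ⟨g, hg, e⟩ := (hhol p f).1 hfp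
  have h1 : E f p = E (g ∘ ι) p :=
    (hE1 p hp f (g ∘ ι) hfp ((hholc p g).2 hg)).2.2.1 (e.filter_mono nhdsWithin_le_nhds)
  rw [h1, ← hE']
  exact hf E' key _ hp g hg

/-- **The restriction is stable.** -/
theorem isRestr_shrink (h : (famS P.S P.B s).IsStable) :
    IsRestr (famS P.S P.B s) D (famS (P.shrink D hD hDB).S D fun j => P.rsec x₀ (s j))
      (P.inc (hB' := hD) (hB := hDB)) := by
  have hsec : ∀ j, IsSec P.S P.B (s j) := fun j b hb =>
    ⟨((h.2.2.2.2.2 b hb).2.1 j).1, ((h.2.2.2.2.2 b hb).2.1 j).2.1,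
      ((h.2.2.2.2.2 b hb).2.1 j).2.2.1⟩
  have hinc : ∀ j, ∀ b ∈ D, P.inc (hB' := hD) (hB := hDB) (P.rsec x₀ (s j) b) = s j b :=
    fun j b hb => PFam.inc_rsec (F := P) (hB' := hD) (hB := hDB) (hsec j) hb
  refine ⟨rfl, ?_, PFam.inc_emb (F := P) (hB' := hD) (hB := hDB), fun _ => rfl,
    PFam.inc_hol (F := P) (hB' := hD) (hB := hDB),
    PFam.inc_hol_comp (F := P) (hB' := hD) (hB := hDB),
    fun x hx => PFam.exists_inc (F := P) (hB' := hD) (hB := hDB) hx, hinc⟩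
  refine isStable_famS (P := P.shrink D hD hDB) (fun j => ?_) (fun j b hb => ?_)
    (fun i j b hb e => ?_) (fun b hb E hE p hp f hf => ?_)
  · exact PFam.isSec_rsec (F := P) (hB := hDB) (hsec j)
  · have hb : b ∈ D := hb
    refine PFam.smoothAt_inc (F := P) ?_
    rw [hinc j b hb]
    obtain ⟨U, x, y, t, hp, hU⟩ := h.2.2.2.2.1 (s j b)
    exact ⟨U, x, y, t, hp, IsChart.isModel (hol := fun p f => P.S.hol p f) hU,
      ((h.2.2.2.2.2 b (hDB hb)).2.1 j).2.2.2.2 U x y t hU hp⟩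
  · have hb : b ∈ D := hb
    have e' := congrArg (P.inc (hB' := hD) (hB := hDB)) e
    rw [hinc i b hb, hinc j b hb] at e'
    exact ((h.2.2.2.2.2 b (hDB hb)).2.1 i).2.2.2.1 j e'
  · have hb : b ∈ D := hb
    exact fld_shrink hsec hb (fun E hE => (h.2.2.2.2.2 b (hDB hb)).2.2 E hE) hE hp hf

end

/-- The proper family of a stable family. -/
def toP (C : Fam L m) (h : C.IsStable) : PFam m where
  S :=
    { X := C.X
      top := inferInstance
      t2 := h.2.1
      π := C.π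
      hol := fun p f => C.hol f p
      model := fun p => by
        obtain ⟨U, x, y, t, hp, hU⟩ := h.2.2.2.2.1 p
        exact ⟨U, x, y, t, hp, IsChart.isModel (hol := fun p f => C.hol f p) hU⟩ }
  B := C.B
  openB := h.1
  mem := h.2.2.1
  proper := h.2.2.2.1
  conn b hb := (h.2.2.2.2.2 b hb).1

/-- **Every stable family has a restriction to every open nonempty part of its base.** -/
theorem exists_restr {C : Fam L m} (h : C.IsStable) {D : Set (Fin m → ℂ)} (hD : IsOpen D)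
    (hDB : D ⊆ C.B) (hne : D.Nonempty) : ∃ (T : Fam L m) (ι : T.X → C.X), IsRestr C D T ι := by
  obtain ⟨b, hb⟩ := hne
  obtain ⟨p, hp⟩ := (h.2.2.2.2.2 b (hDB hb)).1.nonempty
  have hp : C.π p = b := hp
  have hp' : (toP C h).S.π p ∈ D := by change C.π p ∈ D; rw [hp]; exact hb
  obtain ⟨x₀, -⟩ := PFam.exists_inc (F := toP C h) (hB' := hD) (hB := hDB) hp'
  exact ⟨_, _, isRestr_shrink (P := toP C h) (s := C.s) (x₀ := x₀) h⟩

theorem IsRestr.isMor {C T : Fam L m} {D : Set (Fin m → ℂ)} {ι : T.X → C.X}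
    (h : IsRestr C D T ι) (hDB : D ⊆ C.B) : IsMor T C id ι := by
  have hB := h.B
  refine ⟨fun b hb => ⟨hDB (hB ▸ hb), analyticAt_id, ⟨fun x hx => ?_,
    fun x _ y _ e => h.emb.injective e, fun x hx => ?_⟩, fun i => h.s i b (hB ▸ hb)⟩,
    h.emb.continuous, fun f p hf => (h.hol_comp p f).2 hf⟩
  · exact (h.π x).trans hx
  · have hx' : C.π x = b := hx
    obtain ⟨y, rfl⟩ := h.ex x (by rw [hx']; exact hB ▸ hb)
    exact ⟨y, (h.π y).symm.trans hx', rfl⟩

/-- **The value on the restriction is the value on the family.** -/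
theorem IsRestr.F_eq {C T : Fam L m} {D : Set (Fin m → ℂ)} {ι : T.X → C.X}
    (h : IsRestr C D T ι) (hDB : D ⊆ C.B) (hC : C.IsStable) {k : ℕ}
    {F : ∀ m, Fam L m → (Fin m → ℂ) → (Fin m → ℂ) [⋀^Fin k]→L[ℝ] ℝ}
    (hF : IsClosedForm L k F) {b : Fin m → ℂ} (hb : b ∈ D) : F m T b = F m C b := by
  have hb' : b ∈ T.B := h.B ▸ hb
  rw [hF.2 m m C T id ι hC h.stable (h.isMor hDB) b hb', fderiv_id]
  ext v
  rfl

end Vale.Agent.P273.H507

end
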