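import Vale.Agent.P273.H507.Ctr
import Vale.Agent.P273.H183.StartP

/-!
The map between two start families `y ^ 2 = f(x)` over a map of the bases.
-/

noncomputable section

namespace Vale.Agent.P273.H507

open Set Filter Topology H183
open Vale.Agent.P273.H948 (Surf PFam IsModel IsSec)

variable {m m' : ℕ} {B : Set (Fin m → ℂ)} {a : (Fin m → ℂ) → Fin 6 → ℂ}
  {B' : Set (Fin m' → ℂ)} {a' : (Fin m' → ℂ) → Fin 6 → ℂ} {W : Set (Fin m' → ℂ)}
  {φ : (Fin m' → ℂ) → Fin m → ℂ}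

theorem crd_base {b : Fin m → ℂ} {b' : Fin m' → ℂ} (q : ℂ × ℂ × ℂ × ℂ) :
    (crd (b, q)).2 = (crd (b', q)).2 := rfl

theorem crd'_base {b : Fin m → ℂ} {b' : Fin m' → ℂ} (q : ℂ × ℂ × ℂ × ℂ) :
    (crd' (b, q)).2 = (crd' (b', q)).2 := rfl

theorem mem_tot_map {q : ℂ × ℂ × ℂ × ℂ} {b : Fin m → ℂ} {b' : Fin m' → ℂ} (hb : b ∈ B)
    (hab : a' b' = a b) (h : (b', q) ∈ tot B' a') : (b, q) ∈ tot B a := by
  rcases h with ⟨z, hz, e⟩ | ⟨z, hz, e⟩
  · have e1 : z.1 = b' := congrArg Prod.fst e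
    refine Or.inl ⟨(b, z.2), ⟨hb, ?_⟩, ?_⟩
    · have := hz.2
      rw [e1, hab] at this
      exact this
    · have e2 : (emb z).2 = q := congrArg Prod.snd e
      rw [← e2]
      rfl
  · have e1 : z.1 = b' := congrArg Prod.fst e
    refine Or.inr ⟨(b, z.2), ⟨hb, ?_⟩, ?_⟩
    · have := hz.2
      rw [e1, hab] at this
      exact this
    · have e2 : (emb' z).2 = q := congrArg Prod.snd e
      rw [← e2]
      rfl

open Classical in
/-- The map `(b, x, y) ↦ (φ(b), x, y)` over `W`. -/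
def startMap (W : Set (Fin m' → ℂ)) (φ : (Fin m' → ℂ) → Fin m → ℂ) (P₀ : tot B a)
    (P : tot B' a') : tot B a :=
  if h : pr P ∈ W ∧ ((φ (pr P), P.1.2) : (Fin m → ℂ) × ℂ × ℂ × ℂ × ℂ) ∈ tot B a then
    ⟨(φ (pr P), P.1.2), h.2⟩ else P₀

section

variable (hφB : ∀ b ∈ W, φ b ∈ B) (haa : ∀ b ∈ W, a' b = a (φ b)) (P₀ : tot B a)

include hφB haa

theorem startMap_val {P : tot B' a'} (h : pr P ∈ W) :
    (startMap W φ P₀ P : tot B a).1 = (φ (pr P), P.1.2) := by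
  have h2 : ((φ (pr P), P.1.2) : (Fin m → ℂ) × ℂ × ℂ × ℂ × ℂ) ∈ tot B a :=
    mem_tot_map (b' := pr P) (a' := a') (B' := B') (hφB _ h) (haa _ h) P.2
  have : startMap W φ P₀ P = ⟨(φ (pr P), P.1.2), h2⟩ := dif_pos ⟨h, h2⟩
  rw [this]

theorem cA_startMap {P : tot B' a'} (h : pr P ∈ W) :
    cA (startMap W φ P₀ P : tot B a) = (φ (pr P), (cA P).2) := by
  change crd (startMap W φ P₀ P : tot B a).1 = _
  rw [startMap_val hφB haa P₀ h]
  rfl

theorem cF_startMap {P : tot B' a'} (h : pr P ∈ W) :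
    cF (startMap W φ P₀ P : tot B a) = (φ (pr P), (cF P).2) := by
  change crd' (startMap W φ P₀ P : tot B a).1 = _
  rw [startMap_val hφB haa P₀ h]
  rfl

theorem startMap_aff {P : tot B' a'} (h : pr P ∈ W) :
    startMap W φ P₀ P ∈ (aff : Set (tot B a)) ↔ P ∈ (aff : Set (tot B' a')) := by
  change (startMap W φ P₀ P : tot B a).1.2.1 ≠ 0 ↔ P.1.2.1 ≠ 0
  rw [startMap_val hφB haa P₀ h]

theorem startMap_far {P : tot B' a'} (h : pr P ∈ W) :
    startMap W φ P₀ P ∈ (far : Set (tot B a)) ↔ P ∈ (far : Set (tot B' a')) := by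
  change (startMap W φ P₀ P : tot B a).1.2.1 ≠ 1 ↔ P.1.2.1 ≠ 1
  rw [startMap_val hφB haa P₀ h]

theorem continuousAt_startMap (hW : IsOpen W) {P : tot B' a'} (h : pr P ∈ W)
    (hφ : ContinuousAt φ (pr P)) :
    ContinuousAt (startMap W φ P₀ : tot B' a' → tot B a) P := by
  rw [Topology.IsInducing.subtypeVal.continuousAt_iff]
  have h1 : ContinuousAt (fun Q : tot B' a' => ((φ (pr Q), Q.1.2) :
      (Fin m → ℂ) × ℂ × ℂ × ℂ × ℂ)) P :=
    (ContinuousAt.comp (f := (pr : tot B' a' → _)) hφ continuous_pr.continuousAt).prodMk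
      continuous_subtype_val.snd.continuousAt
  refine h1.congr ?_
  filter_upwards [continuous_pr.continuousAt.preimage_mem_nhds (hW.mem_nhds h)] with Q hQ
  exact (startMap_val hφB haa P₀ hQ).symm

theorem hlo_startMap (hW : IsOpen W) {P : tot B' a'} (h : pr P ∈ W) (hφ : AnalyticAt ℂ φ (pr P))
    {g : tot B a → ℂ} (hg : hlo g (startMap W φ P₀ P)) :
    hlo (g ∘ (startMap W φ P₀ : tot B' a' → tot B a)) P := by
  have hc := continuousAt_startMap hφB haa P₀ hW h hφ.continuousAt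
  have hev : ∀ᶠ Q : tot B' a' in 𝓝 P, pr Q ∈ W :=
    continuous_pr.continuousAt.preimage_mem_nhds (hW.mem_nhds h)
  rcases mem_aff_or_far P with hP | hP
  · obtain ⟨G, hG, e⟩ := (hlo_aff ((startMap_aff hφB haa P₀ h).2 hP)).1 hg
    rw [cA_startMap hφB haa P₀ h] at hG
    refine (hlo_aff hP).2 ⟨fun z => G (φ z.1, z.2), ?_, ?_⟩
    · refine AnalyticAt.comp (g := G) (f := fun z : (Fin m' → ℂ) × ℂ × ℂ => (φ z.1, z.2))
        hG ?_
      exact (AnalyticAt.comp (g := φ) (f := Prod.fst) (x := cA P) hφ analyticAt_fst).prod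
        analyticAt_snd
    · filter_upwards [hev, hc.eventually e] with Q h1 h2
      rw [Function.comp_apply, h2, cA_startMap hφB haa P₀ h1]
      rfl
  · obtain ⟨G, hG, e⟩ := (hlo_far ((startMap_far hφB haa P₀ h).2 hP)).1 hg
    rw [cF_startMap hφB haa P₀ h] at hG
    refine (hlo_far hP).2 ⟨fun z => G (φ z.1, z.2), ?_, ?_⟩
    · refine AnalyticAt.comp (g := G) (f := fun z : (Fin m' → ℂ) × ℂ × ℂ => (φ z.1, z.2))
        hG ?_
      exact (AnalyticAt.comp (g := φ) (f := Prod.fst) (x := cF P) hφ analyticAt_fst).prod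
        analyticAt_snd
    · filter_upwards [hev, hc.eventually e] with Q h1 h2
      rw [Function.comp_apply, h2, cF_startMap hφB haa P₀ h1]
      rfl

/-- **The map of the start families.** -/
theorem start_smap (hB : IsOpen B) (ha : ∀ b ∈ B, AnalyticAt ℂ a b) (hK : ∀ b ∈ B, a b ∈ K6)
    (hB' : IsOpen B') (ha' : ∀ b ∈ B', AnalyticAt ℂ a' b) (hK' : ∀ b ∈ B', a' b ∈ K6)
    (hW : IsOpen W) (hWB : W ⊆ B') (hφ : ∀ b ∈ W, AnalyticAt ℂ φ b) :
    SMap (startS B' a' hB' ha' hK') (startS B a hB ha hK) W φ (startMap W φ P₀) where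
  π P h := congrArg Prod.fst (startMap_val hφB haa P₀ (P := P) h)
  cont P h := continuousAt_startMap hφB haa P₀ hW (P := P) h (hφ _ h).continuousAt
  bij b hb := by
    have hval : ∀ P : tot B' a', pr P = b → (startMap W φ P₀ P : tot B a).1 = (φ b, P.1.2) := by
      intro P hP
      rw [startMap_val hφB haa P₀ (P := P) (by rw [hP]; exact hb), hP]
    refine ⟨fun P hP => ?_, fun P hP Q hQ e => ?_, fun Q hQ => ?_⟩
    · exact congrArg Prod.fst (hval P hP)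
    · have hP : pr P = b := hP
      have hQ : pr Q = b := hQ
      have e1 : (startMap W φ P₀ P : tot B a).1 = (startMap W φ P₀ Q : tot B a).1 :=
        congrArg Subtype.val e
      rw [hval P hP, hval Q hQ] at e1
      have e2 : P.1.2 = Q.1.2 := (Prod.ext_iff.1 e1).2
      exact Subtype.ext (Prod.ext (hP.trans hQ.symm) e2)
    · have hQ : pr Q = φ b := hQ
      have hm : ((b, Q.1.2) : (Fin m' → ℂ) × ℂ × ℂ × ℂ × ℂ) ∈ tot B' a' :=
        mem_tot_map (b' := φ b) (a' := a) (B' := B) (hWB hb) (haa b hb).symm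
          (by rw [← hQ]; exact Q.2)
      refine ⟨⟨(b, Q.1.2), hm⟩, rfl, Subtype.ext ?_⟩
      rw [hval ⟨(b, Q.1.2), hm⟩ rfl]
      exact Prod.ext hQ.symm rfl
  hol P h g hg := hlo_startMap hφB haa P₀ hW (P := P) h (hφ _ h) hg

end

section sections

variable [Nonempty (tot B a)] [Nonempty (tot B' a')]

theorem startMap_secA (hφB : ∀ b ∈ W, φ b ∈ B) (haa : ∀ b ∈ W, a' b = a (φ b)) (P₀ : tot B a)
    {x y : (Fin m → ℂ) → ℂ} {x' y' : (Fin m' → ℂ) → ℂ} {b : Fin m' → ℂ} (hb : b ∈ W)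
    (hb' : b ∈ B') (hx : x' b = x (φ b)) (hy : y' b = y (φ b))
    (h : y' b ^ 2 = sx (a' b) (x' b)) :
    startMap W φ P₀ (secA x' y' b : tot B' a') = (secA x y (φ b) : tot B a) := by
  have h1 : (b, x' b, y' b) ∈ Zaff B' a' := ⟨hb', h⟩
  have h2 : (φ b, x (φ b), y (φ b)) ∈ Zaff B a :=
    ⟨hφB b hb, by rw [← hx, ← hy, ← haa b hb]; exact h⟩
  have hp : pr (secA x' y' b : tot B' a') = b := congrArg Prod.fst (cA_secA h1)
  apply Subtype.ext
  rw [startMap_val hφB haa P₀ (by rw [hp]; exact hb), hp, secA_eq h1, secA_eq h2]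
  change (φ b, (emb (b, x' b, y' b)).2) = emb (φ b, x (φ b), y (φ b))
  rw [← hx, ← hy]
  rfl

theorem startMap_secF (hφB : ∀ b ∈ W, φ b ∈ B) (haa : ∀ b ∈ W, a' b = a (φ b)) (P₀ : tot B a)
    {x y : (Fin m → ℂ) → ℂ} {x' y' : (Fin m' → ℂ) → ℂ} {b : Fin m' → ℂ} (hb : b ∈ W)
    (hb' : b ∈ B') (hx : x' b = x (φ b)) (hy : y' b = y (φ b))
    (h : y' b ^ 2 = sw (a' b) (x' b)) :
    startMap W φ P₀ (secF x' y' b : tot B' a') = (secF x y (φ b) : tot B a) := by
  have h1 : (b, x' b, y' b) ∈ Zfar B' a' := ⟨hb', h⟩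
  have h2 : (φ b, x (φ b), y (φ b)) ∈ Zfar B a :=
    ⟨hφB b hb, by rw [← hx, ← hy, ← haa b hb]; exact h⟩
  have hp : pr (secF x' y' b : tot B' a') = b := congrArg Prod.fst (cF_secF h1)
  apply Subtype.ext
  rw [startMap_val hφB haa P₀ (by rw [hp]; exact hb), hp, secF_eq h1, secF_eq h2]
  change (φ b, (emb' (b, x' b, y' b)).2) = emb' (φ b, x (φ b), y (φ b))
  rw [← hx, ← hy]
  rfl

end sections

end Vale.Agent.P273.H507

end
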